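import Vale.Agent.P257.H919.Small
import Vale.Agent.P257.H327.Mon

/-! # P257 / H919 / Bound : no monomial of `E(h_{i,j}) ⊗ P(b_{i,j})` implies no cohomology -/

noncomputable section

namespace Vale.Agent.P257.H919

open Vale.Agent.P257.H93 Vale.Agent.P257.H327 Finset

variable {p : ℕ}

/-- multiply a monomial by `h_a` -/
def mulH (x : Mon) (a : ℕ × ℕ) : Mon := ⟨insert a x.h, x.b⟩

/-- multiply a monomial by `b_a` -/
def mulB (x : Mon) (a : ℕ × ℕ) : Mon := ⟨x.h, x.b + Finsupp.single a 1⟩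

theorem s_mulH {x : Mon} {a : ℕ × ℕ} (ha : a ∉ x.h) : (mulH x a).s = x.s + 1 := by
  unfold Mon.s mulH
  rw [card_insert_of_notMem ha]
  ring

theorem W_mulH {x : Mon} {a : ℕ × ℕ} (ha : a ∉ x.h) : (mulH x a).W p = x.W p + wt p a := by
  unfold Mon.W mulH
  rw [sum_insert ha]
  ring

theorem s_mulB (x : Mon) (a : ℕ × ℕ) : (mulB x a).s = x.s + 2 := by
  unfold Mon.s mulB
  rw [Finsupp.sum_add_index' (fun _ => rfl) (fun _ _ _ => rfl), Finsupp.sum_single_index rfl]
  ring

theorem W_mulB (x : Mon) (a : ℕ × ℕ) : (mulB x a).W p = x.W p + p * wt p a := by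
  unfold Mon.W mulB
  rw [Finsupp.sum_add_index' (fun _ => by simp) (fun _ _ _ => by ring),
    Finsupp.sum_single_index (by simp)]
  ring

theorem ew_eq (hp : 1 ≤ p) (m j : ℕ) : Crd.ew p m j = (p - 1) * wt p (m, j) := by
  unfold Crd.ew wt
  obtain ⟨q, rfl⟩ : ∃ q, p = q + 1 := ⟨p - 1, by omega⟩
  rw [Nat.add_sub_cancel]
  have h : ∀ m, (q + 1) ^ (m + 1) - 1 = q * ∑ l ∈ range (m + 1), (q + 1) ^ l := by
    intro m
    have h1 := Nat.geomSum_eq (show 2 ≤ q + 1 + 1 by omega) (m + 1)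
    clear h1
    induction m with
    | zero => simp
    | succ m ih =>
      rw [sum_range_succ, mul_add, ← ih]
      have h2 : 1 ≤ (q + 1) ^ (m + 1) := Nat.one_le_pow _ _ (by omega)
      have h3 : (q + 1) ^ (m + 1 + 1) = (q + 1) ^ (m + 1) + q * (q + 1) ^ (m + 1) := by ring
      omega
  rw [h m]
  have h4 : ∀ l ∈ range (m + 1), (q + 1) ^ (j + l) = (q + 1) ^ l * (q + 1) ^ j := by
    intro l _
    rw [pow_add, mul_comm]
  rw [sum_congr rfl h4, ← sum_mul]
  ring

/-- there is a monomial in the generators with index `m' > m`, or `m' = m` and `j' < j`, of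
given tridegree -/
def Q (p m j s : ℕ) (w : ℤ) : Prop :=
  ∃ x : Mon, (∀ a ∈ x.h, m < a.1 ∨ (a.1 = m ∧ a.2 < j)) ∧
    (∀ a ∈ x.b.support, m < a.1 ∨ (a.1 = m ∧ a.2 < j)) ∧ x.s = s ∧
    (((p - 1) * x.W p : ℕ) : ℤ) = w

/-- there is a monomial in the generators with index `m' ≥ m` of given tridegree -/
def P (p m s : ℕ) (w : ℤ) : Prop :=
  ∃ x : Mon, (∀ a ∈ x.h, m ≤ a.1) ∧ (∀ a ∈ x.b.support, m ≤ a.1) ∧ x.s = s ∧
    (((p - 1) * x.W p : ℕ) : ℤ) = w

namespace Crd

variable [hp : Fact p.Prime] {𝒢 : Grp p} (c : Crd 𝒢) {m : ℕ}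

theorem van_M_of_not_Q {N : ℤ} (h : ∀ s w, w < N → ¬ P p (m + 1) s w →
    Van (pt (c.A (m + 1))) (triv (c.A (m + 1))) s w) (j : ℕ) :
    ∀ s w, w < N → ¬ Q p m j s w → Van (pt (c.A m)) (c.M m j) s w := by
  have h1 := hp.1.one_lt.le
  induction j with
  | zero =>
    intro s w hw hQ
    refine c.van_M_zero (h s w hw fun ⟨x, hx, hb, hs, hW⟩ => hQ ⟨x, ?_, ?_, hs, hW⟩)
    · exact fun a ha => Or.inl (hx a ha)
    · exact fun a ha => Or.inl (hb a ha)
  | succ j ih =>
    intro s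
    induction s using Nat.strong_induction_on with
    | _ s ihs =>
      intro w hw hQ
      have e0 : ∀ j, (0 : ℤ) ≤ ew p m j := fun j => Int.natCast_nonneg _
      refine c.van_M_succ (ih s w hw fun ⟨x, hx, hb, hs, hW⟩ => hQ ⟨x, ?_, ?_, hs, hW⟩) ?_ ?_
      · exact fun a ha => (hx a ha).imp id fun h => ⟨h.1, by omega⟩
      · exact fun a ha => (hb a ha).imp id fun h => ⟨h.1, by omega⟩
      · rintro k rfl
        refine ih k _ (by linarith [e0 j]) fun ⟨x, hx, hb, hs, hW⟩ => hQ ?_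
        have hn : (m, j) ∉ x.h := fun h => by
          rcases hx _ h with h | h
          · exact lt_irrefl _ h
          · exact lt_irrefl _ h.2
        refine ⟨mulH x (m, j), ?_, ?_, by rw [s_mulH hn, hs], ?_⟩
        · intro a ha
          rcases mem_insert.1 ha with rfl | ha
          · exact Or.inr ⟨rfl, Nat.lt_succ_self j⟩
          · exact (hx a ha).imp id fun h => ⟨h.1, by omega⟩
        · exact fun a ha => (hb a ha).imp id fun h => ⟨h.1, by omega⟩
        · rw [W_mulH hn, mul_add, ← ew_eq h1, Nat.cast_add, hW]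
          ring
      · rintro k rfl
        refine ihs k (by omega) _ (by linarith [e0 (j + 1)]) fun ⟨x, hx, hb, hs, hW⟩ => hQ ?_
        refine ⟨mulB x (m, j), hx, ?_, by rw [s_mulB, hs], ?_⟩
        · intro a ha
          rcases mem_union.1 (Finsupp.support_add ha) with ha | ha
          · exact hb a ha
          · rw [Finsupp.support_single _ one_ne_zero, mem_singleton] at ha
            rw [ha]
            exact Or.inr ⟨rfl, Nat.lt_succ_self j⟩
        · rw [W_mulB, mul_add, ← mul_assoc, mul_comm (p - 1) p, mul_assoc, ← ew_eq h1,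
            mul_comm p, ← ew_succ, Nat.cast_add, hW]
          ring

theorem van_of_not_P (N : ℕ) (k : ℕ) : ∀ m, N ≤ m + k → ∀ s w, w < (N : ℤ) → ¬ P p m s w →
    Van (pt (c.A m)) (triv (c.A m)) s w := by
  have hlt : ∀ n : ℕ, n < p ^ n := fun n => Nat.lt_pow_self hp.1.one_lt
  induction k with
  | zero =>
    intro m hm s w hw hP
    apply c.van_small
    · have h1 := hlt (m + 1)
      have h2 : N ≤ p ^ (m + 1) - 1 := by omega
      have h3 : (N : ℤ) ≤ ((p ^ (m + 1) - 1 : ℕ) : ℤ) := by exact_mod_cast h2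
      linarith
    · rintro ⟨rfl, rfl⟩
      exact hP ⟨⟨∅, 0⟩, by simp, by simp, by simp [Mon.s], by simp [Mon.W]⟩
  | succ k ih =>
    intro m hm s w hw hP
    have h1 := c.van_M_of_not_Q (m := m) (N := N) (ih (m + 1) (by omega))
    have h2 : w < ew p m N := by
      refine lt_trans hw ?_
      have h3 := hlt N
      have h4 : 1 ≤ p ^ (m + 1) - 1 := by
        have : 1 < p ^ (m + 1) := Nat.one_lt_pow (Nat.succ_ne_zero m) hp.1.one_lt
        omega
      have h5 : N < ew p m N := by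
        unfold ew
        nlinarith
      exact_mod_cast h5
    refine c.van_triv_of_M h2 (h1 N s w hw fun ⟨x, hx, hb, hs, hW⟩ => hP ⟨x, ?_, ?_, hs, hW⟩)
    · exact fun a ha => (hx a ha).elim le_of_lt fun h => h.1.ge
    · exact fun a ha => (hb a ha).elim le_of_lt fun h => h.1.ge

/-- **The May bound**: if there is no monomial of `E(h_{i,j}) ⊗ P(b_{i,j})` in tridegree
`(s, w)` then the cohomology of `A` vanishes there. -/
theorem bound {s : ℕ} {w : ℤ} (h : ∀ x : Mon, x.s = s → (((p - 1) * x.W p : ℕ) : ℤ) ≠ w) :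
    Van (pt (c.A 0)) (triv (c.A 0)) s w := by
  have key : ∀ N : ℕ, w < N → Van (pt (c.A 0)) (triv (c.A 0)) s w := fun N hN =>
    c.van_of_not_P N N 0 (by omega) s w hN fun ⟨x, _, _, hs, hW⟩ => h x hs hW
  exact key (w.toNat + 1) (by push_cast; have := Int.self_le_toNat w; omega)

end Crd

end Vale.Agent.P257.H919

end
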