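import Vale.Agent.P257.H93.Nat
import Mathlib.Algebra.Polynomial.Taylor
import Mathlib.Algebra.Polynomial.Expand
import Mathlib.Algebra.CharP.Lemmas
import Mathlib.NumberTheory.Wilson
import Mathlib.Algebra.Field.ZMod
import Mathlib.Tactic

/-! # P257 / H919 / PolyP : polynomials in one variable over an `F_p`-algebra with the
translation action, and the four term exact sequence

`0 → B[y] → B[y] → B[y] → B[y] → 0`,  `f(y) ↦ f(y^p)`, `f ↦ f'`, `∑ y^i f_i(y^p) ↦ f_{p-1}`. -/

noncomputable section

namespace Vale.Agent.P257.H919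

open Polynomial Vale.Agent.P257.H93

variable {p : ℕ} [hp : Fact p.Prime] {B B' : Type} [CommRing B] [CommRing B']

theorem castp (p : ℕ) (B : Type) [CommRing B] [FpA p B] : (p : B) = 0 := FpA.cast

omit hp in
theorem nat_mul_p [FpA p B] (n : ℕ) : ((n * p : ℕ) : B) = 0 := by
  rw [Nat.cast_mul, castp p B, mul_zero]

omit hp in
theorem cast_congr [FpA p B] {a b : ℕ} (hab : a ≡ b [MOD p]) : (a : B) = (b : B) := by
  rw [← Nat.mod_add_div a p, ← Nat.mod_add_div b p, hab]
  push_cast
  rw [castp p B, zero_mul, zero_mul]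

/-- an inverse of `n` modulo `p` -/
def invN (p n : ℕ) : ℕ := ((n : ZMod p)⁻¹).val

theorem mul_invN [FpA p B] {n : ℕ} (h : ¬ p ∣ n) : (n : B) * (invN p n : B) = 1 := by
  have h1 : ((n * invN p n : ℕ) : ZMod p) = ((1 : ℕ) : ZMod p) := by
    rw [Nat.cast_mul, invN, ZMod.natCast_zmod_val, Nat.cast_one, mul_inv_cancel₀]
    rwa [Ne, ZMod.natCast_eq_zero_iff]
  rw [ZMod.natCast_eq_natCast_iff] at h1
  rw [← Nat.cast_mul, cast_congr h1, Nat.cast_one]

/-! ### the linear maps -/

/-- `∑ y^i f_i(y^p) ↦ f_{k}` as a linear map, `k < p` -/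
def digit (p : ℕ) [Fact p.Prime] (k : ℕ) : B[X] →ₗ[B] B[X] where
  toFun f := ∑ n ∈ Finset.range (f.natDegree + 1), monomial n (f.coeff (n * p + k))
  map_add' f g := by
    have h1 : 1 ≤ p := (Fact.out : p.Prime).one_lt.le
    ext n
    simp only [finsetSum_coeff, coeff_monomial, coeff_add]
    rw [Finset.sum_ite_eq', Finset.sum_ite_eq', Finset.sum_ite_eq']
    simp only [Finset.mem_range]
    have e : ∀ f : B[X], (if n < f.natDegree + 1 then f.coeff (n * p + k) else 0) =
        f.coeff (n * p + k) := by
      intro f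
      split_ifs with h
      · rfl
      · rw [coeff_eq_zero_of_natDegree_lt]
        nlinarith
    rw [e, e]
    have := e (f + g)
    rw [coeff_add] at this
    exact this
  map_smul' c f := by
    have h1 : 1 ≤ p := (Fact.out : p.Prime).one_lt.le
    ext n
    simp only [finsetSum_coeff, coeff_monomial, coeff_smul, RingHom.id_apply]
    rw [Finset.sum_ite_eq', Finset.sum_ite_eq']
    simp only [Finset.mem_range]
    have e : ∀ f : B[X], (if n < f.natDegree + 1 then f.coeff (n * p + k) else 0) =
        f.coeff (n * p + k) := by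
      intro f
      split_ifs with h
      · rfl
      · rw [coeff_eq_zero_of_natDegree_lt]
        nlinarith
    rw [e]
    have := e (c • f)
    rw [coeff_smul] at this
    exact this

@[simp] theorem coeff_digit (k : ℕ) (f : B[X]) (n : ℕ) :
    (digit p k f).coeff n = f.coeff (n * p + k) := by
  have h1 : 1 ≤ p := (Fact.out : p.Prime).one_lt.le
  simp only [digit, LinearMap.coe_mk, AddHom.coe_mk, finsetSum_coeff, coeff_monomial]
  rw [Finset.sum_ite_eq' (Finset.range (f.natDegree + 1)) n]
  split_ifs with h
  · rfl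
  · rw [coeff_eq_zero_of_natDegree_lt]
    rw [Finset.mem_range] at h
    nlinarith

/-- `f(y) ↦ y^k f(y^p)` -/
def undigit (p : ℕ) [Fact p.Prime] (k : ℕ) : B[X] →ₗ[B] B[X] where
  toFun f := X ^ k * expand B p f
  map_add' f g := by rw [map_add, mul_add]
  map_smul' c f := by
    rw [RingHom.id_apply, smul_eq_C_mul, map_mul, expand_C, smul_eq_C_mul]
    ring

theorem undigit_apply (k : ℕ) (f : B[X]) : undigit p k f = X ^ k * expand B p f := rfl

theorem coeff_undigit_mul (f : B[X]) (k n : ℕ) : (undigit p k f).coeff (n * p + k) = f.coeff n := by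
  rw [undigit_apply, coeff_X_pow_mul, coeff_expand_mul hp.1.pos]

theorem coeff_undigit_of_ne {k n : ℕ} (hk : k < p) (h : n % p ≠ k) (f : B[X]) :
    (undigit p k f).coeff n = 0 := by
  rw [undigit_apply, coeff_X_pow_mul']
  split_ifs with h1
  · rw [coeff_expand hp.1.pos, if_neg]
    intro h2
    apply h
    obtain ⟨c, hc⟩ := h2
    have : n = k + p * c := by omega
    rw [this, Nat.add_mul_mod_self_left, Nat.mod_eq_of_lt hk]
  · rfl

theorem digit_undigit (k : ℕ) (f : B[X]) : digit p k (undigit p k f) = f := by
  ext n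
  rw [coeff_digit, coeff_undigit_mul]

/-- an antiderivative: `y^n ↦ y^{n+1}/(n+1)` if `p ∤ n+1`. -/
def anti (p : ℕ) : B[X] →ₗ[B] B[X] where
  toFun f := ∑ n ∈ Finset.range (f.natDegree + 1),
    monomial (n + 1) ((invN p (n + 1) : B) * f.coeff n)
  map_add' f g := by
    ext n
    rcases n with _ | n
    · simp [finsetSum_coeff, coeff_monomial]
    · simp only [finsetSum_coeff, coeff_monomial, coeff_add, Nat.add_right_cancel_iff]
      rw [Finset.sum_ite_eq', Finset.sum_ite_eq', Finset.sum_ite_eq']
      simp only [Finset.mem_range]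
      have e : ∀ f : B[X], (if n < f.natDegree + 1 then (invN p (n + 1) : B) * f.coeff n else 0) =
          (invN p (n + 1) : B) * f.coeff n := by
        intro f
        split_ifs with h
        · rfl
        · rw [coeff_eq_zero_of_natDegree_lt (by omega), mul_zero]
      rw [e, e]
      have := e (f + g)
      rw [coeff_add, mul_add] at this
      rw [mul_add]
      exact this
  map_smul' c f := by
    ext n
    rcases n with _ | n
    · simp [finsetSum_coeff, coeff_monomial]
    · simp only [finsetSum_coeff, coeff_monomial, coeff_smul, Nat.add_right_cancel_iff,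
        RingHom.id_apply]
      rw [Finset.sum_ite_eq', Finset.sum_ite_eq']
      simp only [Finset.mem_range]
      have e : ∀ f : B[X], (if n < f.natDegree + 1 then (invN p (n + 1) : B) * f.coeff n else 0) =
          (invN p (n + 1) : B) * f.coeff n := by
        intro f
        split_ifs with h
        · rfl
        · rw [coeff_eq_zero_of_natDegree_lt (by omega), mul_zero]
      rw [e]
      have := e (c • f)
      rw [coeff_smul] at this
      rw [this, smul_eq_mul, smul_eq_mul]
      ring

omit hp in
@[simp] theorem coeff_anti_zero (f : B[X]) : (anti p f).coeff 0 = 0 := by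
  simp [anti, coeff_monomial]

omit hp in
@[simp] theorem coeff_anti_succ (f : B[X]) (n : ℕ) :
    (anti p f).coeff (n + 1) = (invN p (n + 1) : B) * f.coeff n := by
  simp only [anti, LinearMap.coe_mk, AddHom.coe_mk, finsetSum_coeff, coeff_monomial,
    Nat.add_right_cancel_iff]
  rw [Finset.sum_ite_eq' (Finset.range (f.natDegree + 1)) n]
  split_ifs with h
  · rfl
  · rw [coeff_eq_zero_of_natDegree_lt, mul_zero]
    rw [Finset.mem_range] at h
    omega

theorem dvd_succ_iff {n : ℕ} : p ∣ n + 1 ↔ ∃ m, n = m * p + (p - 1) := by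
  have h1 := hp.1.one_lt
  constructor
  · rintro ⟨k, hk⟩
    obtain ⟨m, rfl⟩ : ∃ m, k = m + 1 := by
      cases k with
      | zero => simp at hk
      | succ m => exact ⟨m, rfl⟩
    refine ⟨m, ?_⟩
    have h3 : p * (m + 1) = m * p + p := by ring
    omega
  · rintro ⟨m, rfl⟩
    refine ⟨m + 1, ?_⟩
    have h3 : p * (m + 1) = m * p + p := by ring
    omega

theorem derivative_anti [FpA p B] {f : B[X]} (h : digit p (p - 1) f = 0) :
    derivative (anti p f) = f := by
  ext n
  rw [coeff_derivative, coeff_anti_succ]
  by_cases hn : p ∣ n + 1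
  · obtain ⟨m, hm⟩ := dvd_succ_iff.1 hn
    have h3 : f.coeff n = 0 := by
      rw [hm, ← coeff_digit (p := p), h, coeff_zero]
    rw [h3, mul_zero, zero_mul]
  · have h2 := mul_invN (B := B) hn
    push_cast at h2
    rw [mul_right_comm, mul_comm ((invN p (n + 1) : ℕ) : B), h2, one_mul]

theorem digit_derivative [FpA p B] (f : B[X]) : digit p (p - 1) (derivative f) = 0 := by
  ext n
  rw [coeff_digit, coeff_derivative, coeff_zero]
  have h1 : ((n * p + (p - 1) : ℕ) : B) + 1 = 0 := by
    have h2 : n * p + (p - 1) + 1 = (n + 1) * p := by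
      have := hp.1.one_lt
      have h3 : (n + 1) * p = n * p + p := by ring
      omega
    have h3 : ((n * p + (p - 1) : ℕ) : B) + 1 = ((n * p + (p - 1) + 1 : ℕ) : B) := by
      push_cast; ring
    rw [h3, h2, nat_mul_p]
  rw [h1, mul_zero]

theorem expand_digit_zero [FpA p B] {f : B[X]} (h : derivative f = 0) :
    expand B p (digit p 0 f) = f := by
  ext n
  rw [coeff_expand hp.1.pos]
  split_ifs with hn
  · rw [coeff_digit, Nat.div_mul_cancel hn, add_zero]
  · rcases n with _ | n
    · exact absurd (dvd_zero p) hn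
    · have h1 := congrArg (fun f => coeff f n) h
      simp only [coeff_derivative, coeff_zero] at h1
      have h2 := mul_invN (B := B) hn
      push_cast at h2
      have h3 : f.coeff (n + 1) = f.coeff (n + 1) * (((n : B) + 1) * (invN p (n + 1) : B)) := by
        rw [h2, mul_one]
      rw [h3, ← mul_assoc, h1, zero_mul]

omit hp in
theorem derivative_expand' [FpA p B] (f : B[X]) : derivative (expand B p f) = 0 := by
  have h : (p : B[X]) = 0 := by
    rw [← map_natCast (C : B →+* B[X]), castp p B, map_zero]
  rw [derivative_expand, h]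
  ring

/-! ### translations -/

theorem taylor_derivative (a : B) (f : B[X]) :
    derivative (taylor a f) = taylor a (derivative f) := by
  rw [taylor_apply, taylor_apply, derivative_comp]
  simp

theorem add_pow_p [FpA p B] (x y : B) : (x + y) ^ p = x ^ p + y ^ p := by
  rcases subsingleton_or_nontrivial B with h | h
  · exact Subsingleton.elim _ _
  · have : CharP B p := (CharP.charP_iff_prime_eq_zero hp.1).2 FpA.cast
    exact add_pow_char _ _ _

theorem add_pow_pp [FpA p B] (x y : B) (j : ℕ) : (x + y) ^ p ^ j = x ^ p ^ j + y ^ p ^ j := by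
  induction j with
  | zero => simp
  | succ j ih => rw [pow_succ, pow_mul, ih, add_pow_p, ← pow_mul, ← pow_mul]

instance [FpA p B] : FpA p B[X] := FpA.of_hom (C : B →+* B[X])

theorem taylor_expand [FpA p B] (a : B) (f : B[X]) :
    taylor a (expand B p f) = expand B p (taylor (a ^ p) f) := by
  rw [taylor_apply, taylor_apply, expand_eq_comp_X_pow, expand_eq_comp_X_pow, comp_assoc,
    comp_assoc]
  congr 1
  simp only [X_pow_comp, add_comp, X_comp, C_comp]
  rw [add_pow_p, C_pow]

/-- `f^{(p-1)} = -f_{p-1}(y^p)` -/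
theorem iterate_derivative_pred [FpA p B] (f : B[X]) :
    derivative^[p - 1] f = - expand B p (digit p (p - 1) f) := by
  have h1 := hp.1.one_lt
  ext n
  rw [coeff_iterate_derivative, coeff_neg, coeff_expand hp.1.pos]
  split_ifs with hn
  · obtain ⟨m, rfl⟩ := hn
    have e1 : p * m / p * p + (p - 1) = p * m + (p - 1) := by
      rw [Nat.mul_div_cancel_left _ hp.1.pos, mul_comm m p]
    rw [coeff_digit, e1]
    have e2 : ((Nat.descFactorial (p * m + (p - 1)) (p - 1) : ℕ) : B) = -1 := by
      have e3 : ((Nat.descFactorial (p * m + (p - 1)) (p - 1) : ℕ) : ZMod p) = -1 := by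
        rw [← ZMod.wilsons_lemma p, ← Nat.descFactorial_self (p - 1)]
        rw [Nat.descFactorial_eq_prod_range, Nat.descFactorial_eq_prod_range]
        push_cast
        refine Finset.prod_congr rfl fun i hi => ?_
        rw [Finset.mem_range] at hi
        rw [Nat.cast_sub (by omega), Nat.cast_sub (by omega), Nat.cast_add, Nat.cast_mul,
          ZMod.natCast_self, zero_mul, zero_add]
      have e4 : ((Nat.descFactorial (p * m + (p - 1)) (p - 1) : ℕ) : ZMod p) =
          ((p - 1 : ℕ) : ZMod p) := by
        rw [e3, Nat.cast_sub h1.le, ZMod.natCast_self, zero_sub, Nat.cast_one]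
      rw [ZMod.natCast_eq_natCast_iff] at e4
      rw [cast_congr e4, Nat.cast_sub h1.le, castp p B, zero_sub, Nat.cast_one]
    rw [nsmul_eq_mul, e2]
    ring
  · have e2 : ((Nat.descFactorial (n + (p - 1)) (p - 1) : ℕ) : B) = 0 := by
      have : p ∣ Nat.descFactorial (n + (p - 1)) (p - 1) := by
        rw [Nat.descFactorial_eq_prod_range]
        have h3 : n % p < p := Nat.mod_lt _ hp.1.pos
        have h4 : n % p ≠ 0 := fun h => hn (Nat.dvd_of_mod_eq_zero h)
        refine dvd_trans ?_ (Finset.dvd_prod_of_mem _ (a := n % p - 1) (by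
          rw [Finset.mem_range]; omega))
        refine ⟨n / p + 1, ?_⟩
        have := Nat.div_add_mod n p
        rw [mul_add]
        omega
      obtain ⟨c, hc⟩ := this
      rw [hc, mul_comm, nat_mul_p]
    rw [nsmul_eq_mul, e2, zero_mul, neg_zero]

theorem taylor_iterate_derivative (a : B) (f : B[X]) (k : ℕ) :
    derivative^[k] (taylor a f) = taylor a (derivative^[k] f) := by
  induction k with
  | zero => rfl
  | succ k ih => rw [Function.iterate_succ_apply', ih, taylor_derivative,
      Function.iterate_succ_apply']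

theorem digit_taylor [FpA p B] (a : B) (f : B[X]) :
    digit p (p - 1) (taylor a f) = taylor (a ^ p) (digit p (p - 1) f) := by
  apply expand_injective hp.1.pos
  rw [← taylor_expand]
  have h1 := iterate_derivative_pred (p := p) (taylor a f)
  rw [taylor_iterate_derivative, iterate_derivative_pred, map_neg] at h1
  exact (neg_injective h1).symm

/-! ### scaling `f(y) ↦ f(b y)` -/

/-- `f(y) ↦ f(b y)` -/
def scX (b : B) : B[X] →ₗ[B] B[X] where
  toFun f := f.comp (C b * X)
  map_add' f g := add_comp
  map_smul' c f := Polynomial.smul_comp _ _ _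

omit hp in
theorem coeff_scX (b : B) (f : B[X]) (n : ℕ) : (scX b f).coeff n = f.coeff n * b ^ n :=
  comp_C_mul_X_coeff

omit hp in
theorem scX_taylor (b a : B) (f : B[X]) : scX b (taylor (b * a) f) = taylor a (scX b f) := by
  simp only [scX, LinearMap.coe_mk, AddHom.coe_mk, taylor_apply, comp_assoc]
  congr 1
  simp only [add_comp, mul_comp, X_comp, C_comp]
  rw [C_mul, mul_add]

omit hp in
theorem map_scX (φ : B →+* B') (b : B) (f : B[X]) : (scX b f).map φ = scX (φ b) (f.map φ) := by
  ext n
  rw [coeff_map, coeff_scX, coeff_scX, coeff_map, map_mul, map_pow]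

omit hp in
theorem map_taylor' (φ : B →+* B') (a : B) (f : B[X]) :
    (taylor a f).map φ = taylor (φ a) (f.map φ) := by
  rw [taylor_apply, taylor_apply, map_comp]
  simp

/-! ### naturality and weights -/

theorem map_digit (φ : B →+* B') (k : ℕ) (f : B[X]) :
    (digit p k f).map φ = digit p k (f.map φ) := by
  ext n
  rw [coeff_map, coeff_digit, coeff_digit, coeff_map]

theorem map_undigit (φ : B →+* B') (k : ℕ) (f : B[X]) :
    (undigit p k f).map φ = undigit p k (f.map φ) := by
  rw [undigit_apply, undigit_apply, Polynomial.map_mul, Polynomial.map_pow, map_X, map_expand]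

omit hp in
theorem map_anti (φ : B →+* B') (f : B[X]) : (anti p f).map φ = anti p (f.map φ) := by
  ext n
  rcases n with _ | n
  · rw [coeff_map, coeff_anti_zero, coeff_anti_zero, map_zero]
  · rw [coeff_map, coeff_anti_succ, coeff_anti_succ, coeff_map, map_mul, map_natCast]

omit hp in
theorem derivative_scX (b : B) (f : B[X]) : derivative (scX b f) = b • scX b (derivative f) := by
  ext n
  rw [coeff_derivative, coeff_scX, coeff_smul, coeff_scX, coeff_derivative, smul_eq_mul, pow_succ]
  ring

omit hp in
theorem anti_scX (b : B) (f : B[X]) : scX b (anti p f) = b • anti p (scX b f) := by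
  ext n
  rcases n with _ | n
  · rw [coeff_scX, coeff_smul, coeff_anti_zero, coeff_anti_zero]
    simp
  · rw [coeff_scX, coeff_smul, coeff_anti_succ, coeff_anti_succ, coeff_scX, smul_eq_mul, pow_succ]
    ring

theorem digit_scX (b : B) (k : ℕ) (f : B[X]) :
    digit p k (scX b f) = b ^ k • scX (b ^ p) (digit p k f) := by
  ext n
  rw [coeff_digit, coeff_scX, coeff_smul, coeff_scX, coeff_digit, smul_eq_mul, ← pow_mul, pow_add,
    mul_comm n p]
  ring

theorem undigit_scX (b : B) (k : ℕ) (f : B[X]) :
    scX b (undigit p k f) = b ^ k • undigit p k (scX (b ^ p) f) := by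
  simp only [scX, LinearMap.coe_mk, AddHom.coe_mk, undigit_apply, mul_comp, X_pow_comp]
  rw [mul_pow, ← C_pow, smul_eq_C_mul, expand_eq_comp_X_pow, expand_eq_comp_X_pow, comp_assoc,
    comp_assoc]
  simp only [X_pow_comp, mul_comp, C_comp, X_comp, mul_pow, ← C_pow]
  ring

theorem expand_scX (b : B) (f : B[X]) :
    scX b (expand B p f) = expand B p (scX (b ^ p) f) := by
  simp only [scX, LinearMap.coe_mk, AddHom.coe_mk, expand_eq_comp_X_pow, comp_assoc]
  simp only [X_pow_comp, mul_comp, C_comp, X_comp, mul_pow, ← C_pow]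

end Vale.Agent.P257.H919
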