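import Vale.Agent.P257.H919.Four
import Vale.Agent.P257.H919.PolyP
import Mathlib.RingTheory.Ideal.Quotient.Operations
import Mathlib.Algebra.Polynomial.Laurent

/-! # P257 / H919 / Crd : group functors with coordinates `t_1, t_2, …` (additive series),
their subgroups `A_m = {t_1 = … = t_m = 0}` and the modules `M_j = B[y]` -/

noncomputable section

namespace Vale.Agent.P257.H919

open Vale.Agent.P251.F.F3 Vale.Agent.P257.H93 Finset

variable {p : ℕ}

/-- Coordinates on a group functor: its points are the strict additive series `∑ t_i x^{p^i}`. -/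
structure Crd (𝒢 : Grp p) where
  t : ∀ {B : Type} [CommRing B] [FpA p B], 𝒢.obj B → ℕ → B
  t_zero : ∀ {B : Type} [CommRing B] [FpA p B] (g : 𝒢.obj B), t g 0 = 1
  t_map : ∀ {B C : Type} [CommRing B] [FpA p B] [CommRing C] [FpA p C] (φ : B →+* C)
    (g : 𝒢.obj B) (i : ℕ), t (𝒢.map φ g) i = φ (t g i)
  t_sc : ∀ {B : Type} [CommRing B] [FpA p B] (u : Bˣ) (g : 𝒢.obj B) (i : ℕ),
    t (𝒢.sc u g) i = (u : B) ^ (p ^ i - 1) * t g i
  t_mul : ∀ {B : Type} [CommRing B] [FpA p B] (g h : 𝒢.obj B) (n : ℕ),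
    t (g * h) n = ∑ a ∈ antidiagonal n, t g a.1 * t h a.2 ^ p ^ a.1
  ofT : ∀ {B : Type} [CommRing B] [FpA p B], (ℕ → B) → 𝒢.obj B
  t_mk : ∀ {B : Type} [CommRing B] [FpA p B] (a : ℕ → B) (i : ℕ), t (ofT a) (i + 1) = a (i + 1)
  t_inj : ∀ {B : Type} [CommRing B] [FpA p B] (g h : 𝒢.obj B), (∀ i, t g i = t h i) → g = h

namespace Crd

variable [hp : Fact p.Prime] {𝒢 : Grp p} (c : Crd 𝒢) {B : Type} [CommRing B] [FpA p B]

theorem t_succ_mul (g h : 𝒢.obj B) (n : ℕ) :
    c.t (g * h) (n + 1) = c.t g (n + 1) + c.t h (n + 1) +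
      ∑ i ∈ range n, c.t g (i + 1) * c.t h (n - i) ^ p ^ (i + 1) := by
  rw [c.t_mul, Finset.Nat.sum_antidiagonal_eq_sum_range_succ_mk, sum_range_succ',
    sum_range_succ]
  simp only [c.t_zero, Nat.sub_zero, pow_zero, one_mul, pow_one, Nat.sub_self, one_pow, mul_one]
  have : ∀ i ∈ range n, c.t g (i + 1) * c.t h (n + 1 - (i + 1)) ^ p ^ (i + 1) =
      c.t g (i + 1) * c.t h (n - i) ^ p ^ (i + 1) := by
    intro i _
    rw [Nat.add_sub_add_right]
  rw [sum_congr rfl this]
  ring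

theorem t_one (n : ℕ) : c.t (1 : 𝒢.obj B) (n + 1) = 0 := by
  induction n using Nat.strong_induction_on with
  | _ n ih =>
    have h := c.t_succ_mul (1 : 𝒢.obj B) 1 n
    rw [one_mul, sum_eq_zero, add_zero] at h
    · simpa using h
    · intro i hi
      rw [mem_range] at hi
      rw [ih i hi, zero_mul]

/-- the elements with `t_1 = … = t_m = 0` -/
def sub (m : ℕ) (B : Type) [CommRing B] [FpA p B] : Subgroup (𝒢.obj B) where
  carrier := {g | ∀ i < m, c.t g (i + 1) = 0}
  one_mem' := fun i _ => c.t_one i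
  mul_mem' := by
    intro g h hg hh i hi
    rw [c.t_succ_mul, hg i hi, hh i hi, sum_eq_zero, add_zero, add_zero]
    intro j hj
    rw [mem_range] at hj
    rw [hg j (by omega), zero_mul]
  inv_mem' := by
    intro g hg i hi
    have h := c.t_succ_mul g g⁻¹ i
    rw [mul_inv_cancel, c.t_one, hg i hi, zero_add, sum_eq_zero, add_zero] at h
    · exact h.symm
    · intro j hj
      rw [mem_range] at hj
      rw [hg j (by omega), zero_mul]

theorem mem_sub {m : ℕ} {g : 𝒢.obj B} : g ∈ c.sub m B ↔ ∀ i < m, c.t g (i + 1) = 0 := Iff.rfl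

/-- the group functor `A_m` -/
@[reducible] def A (m : ℕ) : Grp p where
  obj B _ _ := c.sub m B
  grp _ _ _ := inferInstance
  map {B C} _ _ _ _ φ :=
    { toFun := fun g => ⟨𝒢.map φ g, fun i hi => by rw [c.t_map, g.2 i hi, map_zero]⟩
      map_one' := Subtype.ext (map_one _)
      map_mul' := fun g h => Subtype.ext (map_mul _ _ _) }
  sc {B} _ _ u :=
    { toFun := fun g => ⟨𝒢.sc u g, fun i hi => by rw [c.t_sc, g.2 i hi, mul_zero]⟩
      map_one' := Subtype.ext (map_one _)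
      map_mul' := fun g h => Subtype.ext (map_mul _ _ _) }
  map_sc φ u g := Subtype.ext (𝒢.map_sc φ u g)

variable {m : ℕ}

/-- the coordinate `t_{m+1}` on `A_m`, a homomorphism -/
def x (g : (c.A m).obj B) : B := c.t (g : 𝒢.obj B) (m + 1)

theorem x_mul (g h : (c.A m).obj B) : c.x (g * h) = c.x g + c.x h := by
  rw [x, Subgroup.coe_mul, c.t_succ_mul, sum_eq_zero, add_zero]
  · rfl
  · intro j hj
    rw [mem_range] at hj
    rw [g.2 j hj, zero_mul]

theorem x_one : c.x (1 : (c.A m).obj B) = 0 := c.t_one m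

theorem x_inv (g : (c.A m).obj B) : c.x g⁻¹ = - c.x g := by
  have h := c.x_mul g g⁻¹
  rw [mul_inv_cancel, x_one] at h
  exact (neg_eq_of_add_eq_zero_right h.symm).symm

theorem x_map {C : Type} [CommRing C] [FpA p C] (φ : B →+* C) (g : (c.A m).obj B) :
    c.x ((c.A m).map φ g) = φ (c.x g) := c.t_map φ _ _

theorem x_sc (u : Bˣ) (g : (c.A m).obj B) :
    c.x ((c.A m).sc u g) = (u : B) ^ (p ^ (m + 1) - 1) * c.x g := c.t_sc u _ _

theorem A_ext {g h : (c.A m).obj B} (H : ∀ i, m ≤ i → c.t (g : 𝒢.obj B) (i + 1) =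
    c.t (h : 𝒢.obj B) (i + 1)) : g = h := by
  apply Subtype.ext
  apply c.t_inj
  intro i
  rcases i with _ | i
  · rw [c.t_zero, c.t_zero]
  · rcases lt_or_ge i m with hi | hi
    · rw [g.2 i hi, h.2 i hi]
    · exact H i hi

/-- the element of `A_m` with given coordinates -/
def mkA (m : ℕ) (a : ℕ → B) : (c.A m).obj B :=
  ⟨c.ofT fun i => if i ≤ m then 0 else a i, fun i hi => by rw [c.t_mk, if_pos (by omega)]⟩

theorem t_mkA (a : ℕ → B) {i : ℕ} (hi : m ≤ i) :
    c.t (c.mkA m a : 𝒢.obj B) (i + 1) = a (i + 1) := by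
  change c.t (c.ofT _) (i + 1) = _
  rw [c.t_mk, if_neg (by omega)]

/-! ### the affine line with translations, and Shapiro -/

/-- `G_a` with `g y = y + t_{m+1}(g)` -/
@[reducible] def Ya (m : ℕ) : GSet (c.A m) where
  obj B _ _ := B
  act B _ _ :=
    { smul := fun g y => y + c.x g
      one_smul := fun y => by change y + c.x 1 = y; rw [x_one, add_zero]
      mul_smul := fun g h y => by
        change y + c.x (g * h) = (y + c.x h) + c.x g
        rw [x_mul]; ring }
  map φ y := φ y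
  map_smul φ g y := by
    change φ (y + c.x g) = φ y + c.x _
    rw [x_map, map_add]
  sc {B} _ _ u y := (u : B) ^ (p ^ (m + 1) - 1) * y
  sc_smul {B} _ _ u g y := by
    change (u : B) ^ (p ^ (m + 1) - 1) * (y + c.x g) =
      (u : B) ^ (p ^ (m + 1) - 1) * y + c.x ((c.A m).sc u g)
    rw [x_sc, mul_add]
  map_sc φ u y := by
    rw [map_mul, map_pow]
    rfl

theorem Ya_smul (g : (c.A m).obj B) (y : B) :
    ((c.Ya m).act B).toSMul.smul g y = y + c.x g := rfl

/-- the stabilizer of `0` is `A_{m+1}` -/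
def shap (m : ℕ) : Shap (c.A m) (c.Ya m) (c.A (m + 1)) where
  inc {B} _ _ :=
    { toFun := fun g => ⟨g.1, fun i hi => g.2 i (by omega)⟩
      map_one' := rfl
      map_mul' := fun _ _ => rfl }
  inc_map _ _ := rfl
  inc_sc _ _ := rfl
  inc_inj := by
    intro B _ _ g h H
    exact Subtype.ext (congrArg (fun a : (c.A m).obj B => (a : 𝒢.obj B)) H)
  x₀ := 0
  x₀_map φ := map_zero φ
  x₀_sc u := mul_zero _
  stab {B} _ _ g := by
    change (0 : B) + c.x g = 0 ↔ _
    rw [zero_add]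
    constructor
    · intro h
      refine ⟨⟨g.1, fun i hi => ?_⟩, rfl⟩
      rcases lt_or_eq_of_le (Nat.lt_succ_iff.1 hi) with h1 | rfl
      · exact g.2 i h1
      · exact h
    · rintro ⟨k, rfl⟩
      exact k.2 m (Nat.lt_succ_self m)
  s {B} _ _ y := c.mkA m fun i => if i = m + 1 then y else 0
  s_map {B C} _ _ _ _ φ y := by
    apply c.A_ext
    intro i hi
    rw [c.t_mkA _ hi]
    change _ = c.t (𝒢.map φ _) (i + 1)
    rw [c.t_map, c.t_mkA _ hi]
    split_ifs
    · rfl
    · rw [map_zero]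
  s_sc {B} _ _ u y := by
    apply c.A_ext
    intro i hi
    rw [c.t_mkA _ hi]
    change _ = c.t (𝒢.sc u _) (i + 1)
    rw [c.t_sc, c.t_mkA _ hi]
    split_ifs with h
    · rw [h]
    · rw [mul_zero]
  s_smul {B} _ _ y := by
    change (0 : B) + c.x _ = y
    rw [zero_add]
    change c.t _ (m + 1) = y
    rw [c.t_mkA _ le_rfl, if_pos rfl]
  s_x₀ {B} _ _ := by
    apply c.A_ext
    intro i hi
    rw [c.t_mkA _ hi]
    have : c.t ((1 : (c.A m).obj B) : 𝒢.obj B) (i + 1) = 0 := c.t_one i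
    rw [this]
    split_ifs <;> rfl

/-- restriction of the trivial representation -/
def shapRes (m : ℕ) : ResRep (c.Ya m) (c.shap m) (triv (c.A m)) (triv (c.A (m + 1))) where
  e := LinearEquiv.refl _ _
  e_map _ _ := rfl
  e_sc _ _ := rfl
  e_smul _ _ := rfl

theorem van_Ya {n : ℕ} {w : ℤ} :
    Van (c.Ya m) (triv (c.A m)) n w ↔ Van (pt (c.A (m + 1))) (triv (c.A (m + 1))) n w :=
  Shap.van_iff (c.shapRes m)

end Crd

end Vale.Agent.P257.H919

end
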