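import Vale.Agent.P257.H919.Bound
import Vale.Agent.P257.H93.Wt

/-! # P257 / H919 / Inst : the bound for the group of strict additive series and for `CobP` -/

noncomputable section

namespace Vale.Agent.P257.H919

open Vale.Agent.P251.F Vale.Agent.P251.F.F3 Vale.Agent.P217
open Vale.Agent.P257.H93 Vale.Agent.P257.H327 Finset

variable {p : ℕ} [hp : Fact p.Prime]

/-- the `i`-th coordinate of a strict additive series -/
def tA (p : ℕ) {B : Type} [CommRing B] (g : addS B) (i : ℕ) : B :=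
  tc p i ((g : strict B) : InvSeries B)

/-- the coordinates on the group of strict additive series -/
def crdAdd (p : ℕ) [hp : Fact p.Prime] : Crd (addG p) where
  t {B} _ _ g i := tA p g i
  t_zero g := tc_zero g.1.2
  t_map {B C} _ _ _ _ φ g i := map_tc φ i _
  t_sc {B} _ _ u g i := tc_scA u g i
  t_mul {B} _ _ g h n := by
    change tc p n (((g : strict B) : InvSeries B) * ((h : strict B) : InvSeries B)) = _
    rw [tc_mul (isAdd_val g), Finset.Nat.sum_antidiagonal_eq_sum_range_succ_mk]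
    rfl
  ofT {B} _ _ a := mkA (p := p) fun i => a (i + 1)
  t_mk {B} _ _ a i := by
    change tc p (i + 1) (((mkA (p := p) fun i => a (i + 1) : addS B) : strict B) :
      InvSeries B) = _
    rw [val_mkA, tc_addMk]
  t_inj {B} _ _ g h H := addS_ext (p := p) fun i => H (i + 1)

variable {𝒢 : Grp p} (c : Crd 𝒢)

/-- `A_0` is everything -/
def shapZero : Shap 𝒢 (pt 𝒢) (c.A 0) where
  inc {B} _ _ := (c.sub 0 B).subtype
  inc_map _ _ := rfl
  inc_sc _ _ := rfl
  inc_inj := by
    intro B _ _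
    exact Subtype.val_injective
  x₀ := ()
  x₀_map _ := rfl
  x₀_sc _ := rfl
  stab {B} _ _ g := ⟨fun _ => ⟨⟨g, fun i hi => absurd hi (Nat.not_lt_zero i)⟩, rfl⟩, fun _ => rfl⟩
  s _ := 1
  s_map φ _ := (map_one _).symm
  s_sc u _ := (map_one _).symm
  s_smul _ := rfl
  s_x₀ := rfl

/-- restriction of the trivial representation -/
def shapZeroRes : ResRep (pt 𝒢) (shapZero c) (triv 𝒢) (triv (c.A 0)) where
  e := LinearEquiv.refl _ _
  e_map _ _ := rfl
  e_sc _ _ := rfl
  e_smul _ _ := rfl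

theorem van_zero_iff {n : ℕ} {w : ℤ} :
    Van (pt 𝒢) (triv 𝒢) n w ↔ Van (pt (c.A 0)) (triv (c.A 0)) n w :=
  Shap.van_iff (shapZeroRes c)

/-- **The May bound** for the group of strict additive series. -/
theorem bound_addG {s : ℕ} {w : ℤ}
    (h : ∀ x : Mon, x.s = s → (((p - 1) * x.W p : ℕ) : ℤ) ≠ w) :
    Van (pt (addG p)) (triv (addG p)) s w :=
  (van_zero_iff (crdAdd p)).2 ((crdAdd p).bound h)

/-- **The May bound** for the cobar complex of the dual of the algebra of reduced powers. -/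
theorem bound_CobP {s : ℕ} {w : ℤ}
    (h : ∀ x : Mon, x.s = s + 1 → (((p - 1) * x.W p : ℕ) : ℤ) ≠ w)
    (z : CobP p (s + 1)) (hz : IsWtP p (s + 1) w z) (hd : dP (s + 1) z = 0) :
    ∃ y : CobP p s, IsWtP p s w y ∧ dP s y = z := by
  obtain ⟨E, hE, hdE⟩ := van_succ.1 (bound_addG h) (ofP z) hz.ofP (by
    rw [← ofP_dP, hd]
    exact (yonP (p := p) (s + 2)).map_zero)
  refine ⟨toP E, isWt_toP.2 hE, ?_⟩
  apply (yonP (p := p) (s + 1)).injective
  change ofP _ = ofP z
  rw [ofP_dP, ofP_toP, hdE]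

end Vale.Agent.P257.H919

end
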