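import Vale.Agent.P257.H919.VanDK
import Vale.Agent.P257.H919.Inst

/-! # P257 / H919 / DG : the coefficients `D_k` over the group of strict additive series -/

noncomputable section

namespace Vale.Agent.P257.H919

open Vale.Agent.P251.F Vale.Agent.P251.F.F3 Vale.Agent.P217
open Vale.Agent.P257.H93 Vale.Agent.P257.H327 Finset

variable {p : ℕ} [hp : Fact p.Prime]

namespace Crd

variable {𝒢 : Grp p} (c : Crd 𝒢)

theorem t1_mul {B : Type} [CommRing B] [FpA p B] (g h : 𝒢.obj B) :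
    c.t (g * h) 1 = c.t g 1 + c.t h 1 := by
  have h1 := c.t_succ_mul g h 0
  rwa [sum_range_zero, add_zero] at h1

/-- `D_k = {f ∈ B[y] : deg f < p}` over the whole group, `y = t_1^{p^k}` -/
def DG (k : ℕ) : MatRep 𝒢 (Fin p) where
  ρ {B} _ _ g := matD p (c.t g 1 ^ p ^ k)
  ρ_one {B} _ _ := by
    rw [c.t_one, zero_pow (pow_pos hp.1.pos k).ne', matD_zero]
  ρ_mul {B} _ _ g h := by
    rw [matD_mul, t1_mul, add_pow_pp]
  ρ_map {B C} _ _ _ _ φ g a b := by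
    rw [← matD_map, map_pow, ← c.t_map]
  ω a := (((p - 1) * p ^ k : ℕ) : ℤ) * ((a : ℕ) : ℤ)
  ρ_sc {B} _ _ u g a b := by
    have h : ∀ a : Fin p, ((u ^ ((((p - 1) * p ^ k : ℕ) : ℤ) * ((a : ℕ) : ℤ)) : Bˣ) : B) =
        ((u : B) ^ ((p - 1) * p ^ k)) ^ (a : ℕ) := by
      intro a
      rw [zpow_mul, zpow_natCast, zpow_natCast, Units.val_pow_eq_pow_val,
        Units.val_pow_eq_pow_val]
    have h2 : ((u : B) ^ (p ^ 1 - 1)) ^ p ^ k = (u : B) ^ ((p - 1) * p ^ k) := by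
      rw [pow_one, pow_mul]
    rw [h, h, c.t_sc, mul_pow, h2]
    exact matD_sc ((u : B) ^ ((p - 1) * p ^ k)) (c.t g 1 ^ p ^ k) a b

/-- restriction of `D_k` -/
def resDG (k : ℕ) : ResRep (pt 𝒢) (shapZero c) (c.DG k).rep (c.DK 0 k).rep where
  e := LinearEquiv.refl _ _
  e_map _ _ := rfl
  e_sc {B} _ _ u v := by
    funext a
    change ((u ^ ((((p - 1) * p ^ k : ℕ) : ℤ) * ((a : ℕ) : ℤ)) : Bˣ) : B) * v a =
      ((u ^ ((ew p 0 k : ℤ) * ((a : ℕ) : ℤ)) : Bˣ) : B) * v a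
    rw [ew, zero_add, pow_one]
  e_smul _ _ := rfl

/-- vanishing with coefficients in `D_k` over the whole group -/
theorem van_DG {k s : ℕ} {w : ℤ} (h : ∀ x : Mon, (0, k) ∉ x.h → (0, k) ∉ x.b.support → x.s = s →
    (((p - 1) * x.W p : ℕ) : ℤ) ≠ w) : Van (pt 𝒢) (c.DG k).rep s w := by
  refine (Shap.van_iff (c.resDG k)).2 (c.van_DK fun x hh hb hs => ?_)
  exact h x (fun h' => (hh _ h').2 rfl) (fun h' => (hb _ h').2 rfl) hs

end Crd

/-- `D_k` over the group of strict additive series -/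
abbrev DG (p : ℕ) [Fact p.Prime] (k : ℕ) : MatRep (addG p) (Fin p) := (crdAdd p).DG k

theorem van_DG {k s : ℕ} {w : ℤ} (h : ∀ x : Mon, (0, k) ∉ x.h → (0, k) ∉ x.b.support → x.s = s →
    (((p - 1) * x.W p : ℕ) : ℤ) ≠ w) : Van (pt (addG p)) (DG p k).rep s w :=
  (crdAdd p).van_DG h

end Vale.Agent.P257.H919

end
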