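import Vale.Agent.P257.H919.Mat

/-! # P257 / H919 / DK : the coefficients `D_k = {f ∈ B[y] : deg f < p}`, `y = t_{m+1}^{p^k}` -/

noncomputable section

namespace Vale.Agent.P257.H919

open Vale.Agent.P251.F.F3 Vale.Agent.P257.H93 Finset Polynomial

variable {p : ℕ} [hp : Fact p.Prime] {𝒢 : Grp p} (c : Crd 𝒢) {m : ℕ}

/-- the matrix of `f(y) ↦ f(y - z)` on polynomials of degree `< p` -/
def matD (p : ℕ) {B : Type} [CommRing B] (z : B) : Matrix (Fin p) (Fin p) B := fun a b =>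
  ((X - C z : B[X]) ^ (b : ℕ)).coeff a

theorem natDegree_X_sub_C_pow_le {B : Type} [CommRing B] (z : B) (b : ℕ) :
    ((X - C z : B[X]) ^ b).natDegree ≤ b := by
  refine (natDegree_pow_le).trans ?_
  calc b * (X - C z : B[X]).natDegree ≤ b * 1 := Nat.mul_le_mul_left _ (natDegree_X_sub_C_le z)
    _ = b := mul_one b

/-- a polynomial of degree `< p` from its coefficients -/
theorem sum_coeff_eq {B : Type} [CommRing B] {f : B[X]} (hf : f.natDegree < p) :
    ∑ a : Fin p, C (f.coeff a) * X ^ (a : ℕ) = f := by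
  rw [Fin.sum_univ_eq_sum_range (fun a => C (f.coeff a) * X ^ a) p, ← as_sum_range_C_mul_X_pow' _ hf]

theorem sum_matD {B : Type} [CommRing B] (z : B) (b : Fin p) :
    ∑ a : Fin p, C (matD p z a b) * X ^ (a : ℕ) = (X - C z : B[X]) ^ (b : ℕ) :=
  sum_coeff_eq (lt_of_le_of_lt (natDegree_X_sub_C_pow_le z _) b.2)

theorem matD_mul {B : Type} [CommRing B] (z z' : B) : matD p z * matD p z' = matD p (z + z') := by
  ext a b
  rw [Matrix.mul_apply]
  have h1 := congrArg (taylor (-z)) (sum_matD z' b)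
  rw [map_sum] at h1
  have h2 : ∀ d : Fin p, taylor (-z) (C (matD p z' d b) * X ^ (d : ℕ)) =
      C (matD p z' d b) * (X - C z) ^ (d : ℕ) := by
    intro d
    rw [taylor_mul, taylor_C, taylor_X_pow, C_neg, sub_eq_add_neg]
  rw [Finset.sum_congr rfl fun d _ => h2 d] at h1
  have h3 : taylor (-z) ((X - C z' : B[X]) ^ (b : ℕ)) = (X - C (z + z')) ^ (b : ℕ) := by
    rw [taylor_pow]
    congr 1
    rw [map_sub, taylor_X, taylor_C, C_neg, C_add]
    ring
  rw [h3] at h1
  have h4 := congrArg (fun f => coeff f (a : ℕ)) h1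
  simp only [finsetSum_coeff, coeff_C_mul] at h4
  change ∑ d, matD p z a d * matD p z' d b = ((X - C (z + z') : B[X]) ^ (b : ℕ)).coeff a
  rw [← h4]
  refine sum_congr rfl fun d _ => ?_
  rw [matD, mul_comm]

theorem matD_zero {B : Type} [CommRing B] : matD p (0 : B) = 1 := by
  ext a b
  rw [matD, C_0, sub_zero, coeff_X_pow, Matrix.one_apply]
  simp only [Fin.ext_iff]

theorem matD_map {B B' : Type} [CommRing B] [CommRing B'] (φ : B →+* B') (z : B) (a b : Fin p) :
    matD p (φ z) a b = φ (matD p z a b) := by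
  rw [matD, matD, ← coeff_map, Polynomial.map_pow, Polynomial.map_sub, map_X, map_C]

theorem matD_sc {B : Type} [CommRing B] (v z : B) (a b : Fin p) :
    v ^ (a : ℕ) * matD p (v * z) a b = matD p z a b * v ^ (b : ℕ) := by
  have h : scX v ((X - C (v * z) : B[X]) ^ (b : ℕ)) = C (v ^ (b : ℕ)) * (X - C z) ^ (b : ℕ) := by
    change ((X - C (v * z) : B[X]) ^ (b : ℕ)).comp (C v * X) = _
    rw [pow_comp, sub_comp, X_comp, C_comp, C_mul, ← mul_sub, mul_pow, C_pow]
  have h2 := congrArg (fun f => coeff f (a : ℕ)) h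
  simp only [coeff_scX, coeff_C_mul] at h2
  rw [matD, matD, mul_comm, h2, mul_comm]

namespace Crd

/-- `D_k` -/
def DK (m k : ℕ) : MatRep (c.A m) (Fin p) where
  ρ {B} _ _ g := matD p (c.x g ^ p ^ k)
  ρ_one {B} _ _ := by
    change matD p (c.x (1 : (c.A m).obj B) ^ p ^ k) = 1
    rw [x_one, zero_pow (pow_pos hp.1.pos k).ne', matD_zero]
  ρ_mul {B} _ _ g h := by
    change matD p (c.x (g * h) ^ p ^ k) = matD p (c.x g ^ p ^ k) * matD p (c.x h ^ p ^ k)
    rw [matD_mul, x_mul, add_pow_pp]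
  ρ_map {B C} _ _ _ _ φ g a b := by
    change matD p (c.x ((c.A m).map φ g) ^ p ^ k) a b = φ (matD p (c.x g ^ p ^ k) a b)
    rw [← matD_map, map_pow, ← x_map]
  ω a := (ew p m k : ℤ) * ((a : ℕ) : ℤ)
  ρ_sc {B} _ _ u g a b := by
    have h : ∀ a : Fin p, ((u ^ ((ew p m k : ℤ) * ((a : ℕ) : ℤ)) : Bˣ) : B) =
        ((u : B) ^ ew p m k) ^ (a : ℕ) := by
      intro a
      rw [zpow_mul, zpow_natCast, zpow_natCast, Units.val_pow_eq_pow_val,
        Units.val_pow_eq_pow_val]
    have h2 : ((u : B) ^ (p ^ (m + 1) - 1)) ^ p ^ k = (u : B) ^ ew p m k := by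
      rw [ew, pow_mul]
    rw [h, h, x_sc, mul_pow, h2]
    exact matD_sc ((u : B) ^ ew p m k) (c.x g ^ p ^ k) a b

/-! ### `D_k ⊗ M_{k+1} = M_k` -/

/-- `F ↦ ∑ y^a F_a(y^p)` -/
def Phi (B : Type) [CommRing B] : (Fin p → B[X]) →ₗ[B] B[X] where
  toFun F := ∑ a : Fin p, X ^ (a : ℕ) * expand B p (F a)
  map_add' F F' := by
    rw [← sum_add_distrib]
    refine sum_congr rfl fun a _ => ?_
    rw [Pi.add_apply, map_add, mul_add]
  map_smul' b F := by
    rw [RingHom.id_apply, smul_sum]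
    refine sum_congr rfl fun a _ => ?_
    rw [Pi.smul_apply, map_smul, mul_smul_comm]

theorem Phi_apply {B : Type} [CommRing B] (F : Fin p → B[X]) :
    Phi B F = ∑ a : Fin p, undigit p (a : ℕ) (F a) := rfl

theorem digit_Phi {B : Type} [CommRing B] (F : Fin p → B[X]) (a : Fin p) :
    digit p (a : ℕ) (Phi B F) = F a := by
  ext n
  rw [coeff_digit, Phi_apply, finsetSum_coeff, sum_eq_single a]
  · rw [coeff_undigit_mul]
  · intro b _ hb
    apply coeff_undigit_of_ne b.2
    rw [Nat.add_comm, Nat.add_mul_mod_self_right, Nat.mod_eq_of_lt a.2]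
    exact fun h => hb (Fin.ext h.symm)
  · exact fun h => absurd (mem_univ a) h

theorem Phi_digit {B : Type} [CommRing B] (f : B[X]) :
    Phi B (fun a : Fin p => digit p (a : ℕ) f) = f := by
  ext n
  rw [Phi_apply, finsetSum_coeff, sum_eq_single (⟨n % p, Nat.mod_lt _ hp.1.pos⟩ : Fin p)]
  · have h : n / p * p + n % p = n := Nat.div_add_mod' n p
    dsimp only
    have h2 := coeff_undigit_mul (p := p) (digit p (n % p) f) (n % p) (n / p)
    rw [coeff_digit, h] at h2
    exact h2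
  · intro b _ hb
    apply coeff_undigit_of_ne b.2
    exact fun h => hb (Fin.ext h.symm)
  · exact fun h => absurd (mem_univ _) h

/-- `D_k ⊗ M_{k+1} → M_k` -/
def PhiR (m k : ℕ) : RHom (c.T (c.DK m k) (k + 1)) (c.M m k) where
  h {B} _ _ := Phi B
  nat {B B'} _ _ _ _ φ F := by
    change ∑ a : Fin p, X ^ (a : ℕ) * expand B' p (Polynomial.map φ (F a)) =
      Polynomial.map φ (∑ a : Fin p, X ^ (a : ℕ) * expand B p (F a))
    rw [Polynomial.map_sum]
    refine sum_congr rfl fun a _ => ?_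
    rw [Polynomial.map_mul, Polynomial.map_pow, map_X, map_expand]
  scal {B} _ _ u F := by
    change ∑ a : Fin p, X ^ (a : ℕ) * expand B p (((u ^ ((ew p m k : ℤ) * ((a : ℕ) : ℤ)) : Bˣ) : B) •
        scX ((u : B) ^ ew p m (k + 1)) (F a)) =
      scX ((u : B) ^ ew p m k) (∑ a : Fin p, X ^ (a : ℕ) * expand B p (F a))
    rw [map_sum]
    refine sum_congr rfl fun a _ => ?_
    rw [map_smul, zpow_mul, zpow_natCast, zpow_natCast, Units.val_pow_eq_pow_val,
      Units.val_pow_eq_pow_val]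
    have h := undigit_scX (p := p) ((u : B) ^ ew p m k) (a : ℕ) (F a)
    rw [undigit_apply, undigit_apply, ← pow_mul (u : B) (ew p m k) p, ← ew_succ] at h
    rw [h, mul_smul_comm]
  eqv {B} _ _ g F := by
    change ∑ a : Fin p, X ^ (a : ℕ) * expand B p (∑ b, matD p (c.x g ^ p ^ k) a b •
        taylor (-(c.x g) ^ p ^ (k + 1)) (F b)) =
      taylor (-(c.x g) ^ p ^ k) (∑ b : Fin p, X ^ (b : ℕ) * expand B p (F b))
    simp only [map_sum, map_smul, mul_sum, mul_smul_comm]
    rw [sum_comm]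
    refine sum_congr rfl fun b _ => ?_
    rw [taylor_mul, taylor_X_pow, taylor_expand, neg_pow_succ, C_neg, ← sub_eq_add_neg,
      ← sum_matD, sum_mul]
    refine sum_congr rfl fun a _ => ?_
    rw [smul_eq_C_mul, mul_assoc]

theorem PhiR_injective (k : ℕ) {B : Type} [CommRing B] [FpA p B] :
    Function.Injective ((c.PhiR m k).h (B := B)) := fun F F' h => by
  funext a
  rw [← digit_Phi F a, ← digit_Phi F' a]
  exact congrArg _ h

/-- isomorphic coefficients -/
theorem van_of_iso {𝒢 : Grp p} {𝒳 : GSet 𝒢} {ℳ 𝒩 : Rep 𝒢} (f : RHom ℳ 𝒩)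
    (hi : ∀ {B : Type} [CommRing B] [FpA p B], Function.Injective (f.h (B := B)))
    (hs : ∀ {B : Type} [CommRing B] [FpA p B], Function.Surjective (f.h (B := B)))
    {n : ℕ} {w : ℤ} (h : Van 𝒳 𝒩 n w) : Van 𝒳 ℳ n w := by
  have hinj : ∀ {n : ℕ}, Function.Injective (Coch.push f : Coch 𝒳 ℳ n → _) := by
    intro n F E h
    exact Coch.ext' fun x g => hi (congrArg (fun F : Coch 𝒳 𝒩 n => F.f x g) h)
  have hsurj : ∀ {n} (F : Coch 𝒳 𝒩 n), F.IsWt w → ∃ E : Coch 𝒳 ℳ n, E.IsWt w ∧ E.push f = F := by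
    intro n F hF
    have key : ∃ E : Coch 𝒳 ℳ n, E.push f = F := by
      refine ⟨{ f := fun x g => (hs (F.f x g)).choose, nat := ?_, loc := ?_, eqv := ?_ }, ?_⟩
      · intro B C _ _ _ _ φ x g
        apply hi
        rw [f.nat, (hs _).choose_spec, (hs _).choose_spec, F.nat]
      · intro B _ _ x g g' hg
        apply hi
        rw [(hs _).choose_spec, (hs _).choose_spec, F.loc x g g' hg]
      · intro B _ _ k x g
        apply hi
        rw [(hs _).choose_spec, f.eqv, (hs _).choose_spec, F.eqv]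
      · exact Coch.ext' fun x g => (hs _).choose_spec
    obtain ⟨E, rfl⟩ := key
    refine ⟨E, fun u x g => hi ?_, rfl⟩
    rw [f.scal, map_smul]
    exact hF u x g
  rcases n with _ | n
  · rw [van_zero] at *
    intro F hF hd
    exact hinj (by rw [h _ (hF.push f) (by rw [Coch.push_d, hd, Coch.push_zero]), Coch.push_zero])
  · rw [van_succ] at *
    intro F hF hd
    obtain ⟨E, hE, hdE⟩ := h _ (hF.push f) (by rw [Coch.push_d, hd, Coch.push_zero])
    obtain ⟨E', hE', rfl⟩ := hsurj E hE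
    exact ⟨E', hE', hinj (by rw [← Coch.push_d, hdE])⟩

theorem van_T_base {k n : ℕ} {w : ℤ} (h : Van (pt (c.A m)) (c.M m k) n w) :
    Van (pt (c.A m)) (c.T (c.DK m k) (k + 1)) n w :=
  van_of_iso (c.PhiR m k) (by intro B _ _; exact c.PhiR_injective k)
    (by intro B _ _ f; exact ⟨_, Phi_digit f⟩) h

end Crd

end Vale.Agent.P257.H919

end
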