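import Vale.Agent.P257.H919.Steps
import Vale.Agent.P257.H545.FinalP

/-! # P257 / H919 / Fields : the statements of `Steps` in the form of the fields of `FactsP` -/

namespace Vale.Agent.P257.H919

open Vale.Agent.P257.H93 Vale.Agent.P257.H545

variable {p : ℕ} [Fact p.Prime]

/-- `FactsP` from the exceptional groups -/
theorem factsP (h11 : 11 ≤ p) (hα : VanP p 5 (((p : ℤ) - 1) * (2 * p ^ 2 + 3 * p + 3)))
    (hβ : VanP p 6 (((p : ℤ) - 1) * (2 * p ^ 2 + 4 * p + 2)))
    (hγ : VanP p 7 (((p : ℤ) - 1) * (3 * p ^ 2 + 4 * p)))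
    (hδ : InjP p (H134.hP p 1 4) (((p : ℤ) - 1) * p ^ 4) (2 * (p - 1))
      (((p : ℤ) - 1) * (H314.Wn p 4 + 1))) : FactsP p where
  kappa_onto := kappa_onto h11
  alpha_step1 := alpha_step1 h11
  alpha_step0 := alpha_step0 h11
  gamma_step := gamma_step h11
  alpha := hα
  beta := hβ
  gamma := hγ
  delta := hδ

end Vale.Agent.P257.H919
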