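import Vale.Agent.P257.H93.LES

/-! # P257 / H919 / Four : exact sequences `0 → ℳ' → ℳ → 𝒩 → 𝒩' → 0` of representations -/

noncomputable section

namespace Vale.Agent.P257.H919

open Vale.Agent.P251.F.F3 Vale.Agent.P257.H93

variable {p : ℕ} {𝒢 : Grp p}

/-- exact sequences `0 → ℳ' → ℳ → 𝒩 → 𝒩' → 0` of representations with natural linear
splittings -/
structure Four (ℳ' ℳ 𝒩 𝒩' : Rep 𝒢) where
  i : RHom ℳ' ℳ
  δ : RHom ℳ 𝒩
  r : RHom 𝒩 𝒩'
  sδ : RLin 𝒩 ℳ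
  sr : RLin 𝒩' 𝒩
  i_inj : ∀ {B : Type} [CommRing B] [FpA p B], Function.Injective (i.h (B := B))
  δ_i : ∀ {B : Type} [CommRing B] [FpA p B] (m : ℳ'.obj B), δ.h (i.h m) = 0
  exact : ∀ {B : Type} [CommRing B] [FpA p B] (m : ℳ.obj B), δ.h m = 0 → ∃ m', i.h m' = m
  δ_sδ : ∀ {B : Type} [CommRing B] [FpA p B] (m : 𝒩.obj B), r.h m = 0 → δ.h (sδ.h m) = m
  r_δ : ∀ {B : Type} [CommRing B] [FpA p B] (m : ℳ.obj B), r.h (δ.h m) = 0
  r_sr : ∀ {B : Type} [CommRing B] [FpA p B] (m : 𝒩'.obj B), r.h (sr.h m) = m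

namespace Four

open Coch

variable {𝒳 : GSet 𝒢} {ℳ' ℳ 𝒩 𝒩' : Rep 𝒢} (S : Four ℳ' ℳ 𝒩 𝒩') {n : ℕ} {w : ℤ}

include S

theorem push_injective : Function.Injective (push S.i : Coch 𝒳 ℳ' n → Coch 𝒳 ℳ n) :=
  fun _ _ h => ext' fun x g => S.i_inj (congrArg (fun F : Coch 𝒳 ℳ n => F.f x g) h)

theorem isWt_of_push {F : Coch 𝒳 ℳ' n} (hF : (F.push S.i).IsWt w) : F.IsWt w :=
  fun u x g => by
  apply S.i_inj
  rw [S.i.scal, map_smul]
  exact hF u x g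

theorem push_push_i (F : Coch 𝒳 ℳ' n) : (F.push S.i).push S.δ = 0 :=
  ext' fun _ _ => S.δ_i _

theorem push_push_δ (F : Coch 𝒳 ℳ n) : (F.push S.δ).push S.r = 0 :=
  ext' fun _ _ => S.r_δ _

/-- cochains with values in the kernel of `δ` -/
theorem exists_i {F : Coch 𝒳 ℳ n} (hw : F.IsWt w) (hF : F.push S.δ = 0) :
    ∃ E : Coch 𝒳 ℳ' n, E.IsWt w ∧ E.push S.i = F := by
  have h : ∀ {B : Type} [CommRing B] [FpA p B] (x : 𝒳.obj B) (g : ℕ → 𝒢.obj B),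
      ∃ m, S.i.h m = F.f x g := fun x g =>
    S.exact _ (congrArg (fun F : Coch 𝒳 𝒩 n => F.f x g) hF)
  have key : ∃ E : Coch 𝒳 ℳ' n, E.push S.i = F := by
    refine ⟨{ f := fun x g => (h x g).choose, nat := ?_, loc := ?_, eqv := ?_ }, ?_⟩
    · intro B C _ _ _ _ φ x g
      apply S.i_inj
      rw [S.i.nat, (h x g).choose_spec, (h _ _).choose_spec, F.nat]
    · intro B _ _ x g g' hg
      apply S.i_inj
      rw [(h _ _).choose_spec, (h _ _).choose_spec, F.loc x g g' hg]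
    · intro B _ _ k x g
      apply S.i_inj
      rw [(h _ _).choose_spec, S.i.eqv, (h _ _).choose_spec, F.eqv]
    · exact ext' fun x g => (h x g).choose_spec
  obtain ⟨E, rfl⟩ := key
  exact ⟨E, S.isWt_of_push hw, rfl⟩

omit S in
/-- apply a natural linear map to a cochain, made equivariant by translation -/
def app {𝒜 ℬ : Rep 𝒢} (s : RLin 𝒜 ℬ) (F : Coch 𝒳 𝒜 n) : Coch 𝒳 ℬ n where
  f x g := (g 0)⁻¹ • s.h (g 0 • F.f x g)
  nat φ x g := by
    rw [F.nat, ℬ.map_smul, map_inv, ← s.nat, 𝒜.map_smul]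
  loc x g g' h := by rw [F.loc x g g' h, h 0 (Nat.zero_le _)]
  eqv h x g := by
    rw [F.eqv, smul_smul, inv_mul_cancel_right, mul_inv_rev, inv_inv, mul_smul]

omit S in
theorem app_f {𝒜 ℬ : Rep 𝒢} (s : RLin 𝒜 ℬ) (F : Coch 𝒳 𝒜 n) {B : Type} [CommRing B] [FpA p B]
    (x : 𝒳.obj B) (g : ℕ → 𝒢.obj B) :
    (app s F).f x g = (g 0)⁻¹ • s.h (g 0 • F.f x g) := rfl

omit S in
theorem isWt_app {𝒜 ℬ : Rep 𝒢} (s : RLin 𝒜 ℬ) {F : Coch 𝒳 𝒜 n} (hF : F.IsWt w) :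
    (app s F).IsWt w := fun u x g => by
  rw [app_f, app_f, ← map_inv, ℬ.sc_smul, ← smul_comm]
  congr 1
  rw [← s.scal, 𝒜.sc_smul, hF, ← map_smul, smul_comm]

theorem exists_δ {F : Coch 𝒳 𝒩 n} (hw : F.IsWt w) (hF : F.push S.r = 0) :
    ∃ E : Coch 𝒳 ℳ n, E.IsWt w ∧ E.push S.δ = F := by
  refine ⟨app S.sδ F, isWt_app _ hw, ext' fun x g => ?_⟩
  have h := congrArg (fun F : Coch 𝒳 𝒩' n => F.f x g) hF
  rw [push_f, app_f, S.δ.eqv, S.δ_sδ, inv_smul_smul]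
  rw [S.r.eqv]
  change g 0 • (F.push S.r).f x g = 0
  rw [hF, zero_f, smul_zero]

theorem exists_r {F : Coch 𝒳 𝒩' n} (hw : F.IsWt w) :
    ∃ E : Coch 𝒳 𝒩 n, E.IsWt w ∧ E.push S.r = F := by
  refine ⟨app S.sr F, isWt_app _ hw, ext' fun x g => ?_⟩
  rw [push_f, app_f, S.r.eqv, S.r_sr, inv_smul_smul]

/-- **The vanishing step.** -/
theorem van (h1 : Van 𝒳 ℳ n w) (h2 : ∀ m, n = m + 1 → Van 𝒳 𝒩 m w)
    (h3 : ∀ m, n = m + 2 → Van 𝒳 𝒩' m w) : Van 𝒳 ℳ' n w := by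
  rcases n with _ | n
  · rw [van_zero] at *
    intro F hF hd
    apply S.push_injective
    rw [h1 (F.push S.i) (hF.push _) (by rw [push_d, hd, push_zero]), push_zero]
  · have h2 := h2 n rfl
    rw [van_succ] at *
    intro F hF hd
    obtain ⟨E, hE, hdE⟩ := h1 (F.push S.i) (hF.push _) (by rw [push_d, hd, push_zero])
    -- it suffices to correct `E` such that `δ E = 0`
    have key : ∀ E : Coch 𝒳 ℳ n, E.IsWt w → E.d = F.push S.i → E.push S.δ = 0 →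
        ∃ H : Coch 𝒳 ℳ' n, H.IsWt w ∧ H.d = F := by
      intro E hE hdE h0
      obtain ⟨H, hH, rfl⟩ := S.exists_i hE h0
      exact ⟨H, hH, S.push_injective (by rw [← push_d, hdE])⟩
    have c1 : (E.push S.δ).d = 0 := by rw [push_d, hdE, push_push_i]
    rcases n with _ | n
    · rw [van_zero] at h2
      exact key E hE hdE (h2 _ (hE.push _) c1)
    · rw [van_succ] at h2
      have h3 := h3 n rfl
      obtain ⟨E', hE', hdE'⟩ := h2 _ (hE.push _) c1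
      have key2 : ∀ E' : Coch 𝒳 𝒩 n, E'.IsWt w → E'.d = E.push S.δ → E'.push S.r = 0 →
          ∃ H : Coch 𝒳 ℳ' (n + 1), H.IsWt w ∧ H.d = F := by
        intro E' hE' hdE' h0
        obtain ⟨H, hH, rfl⟩ := S.exists_δ hE' h0
        refine key (E - H.d) (hE.sub hH.d) ?_ ?_
        · rw [d_sub, d_d, sub_zero, hdE]
        · rw [push_sub, ← push_d, hdE', sub_self]
      have c2 : (E'.push S.r).d = 0 := by rw [push_d, hdE', push_push_δ]
      rcases n with _ | n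
      · rw [van_zero] at h3
        exact key2 E' hE' hdE' (h3 _ (hE'.push _) c2)
      · rw [van_succ] at h3
        obtain ⟨E'', hE'', hdE''⟩ := h3 _ (hE'.push _) c2
        obtain ⟨H, hH, rfl⟩ := S.exists_r hE''
        refine key2 (E' - H.d) (hE'.sub hH.d) ?_ ?_
        · rw [d_sub, d_d, sub_zero, hdE']
        · rw [push_sub, ← push_d, hdE'', sub_self]

end Four

end Vale.Agent.P257.H919

end
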