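import Vale.Agent.P257.H919.Bound

/-! # P257 / H919 / Mat : matrix representations `𝒩` and the modules `𝒩 ⊗ M_j` -/

noncomputable section

namespace Vale.Agent.P257.H919

open Vale.Agent.P251.F.F3 Vale.Agent.P257.H93 Finset Polynomial

variable {p : ℕ}

/-- matrix representations; the `a`-th basis vector has weight `ω a` -/
structure MatRep (𝒢 : Grp p) (ι : Type) [Fintype ι] [DecidableEq ι] where
  ρ : ∀ {B : Type} [CommRing B] [FpA p B], 𝒢.obj B → Matrix ι ι B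
  ρ_one : ∀ {B : Type} [CommRing B] [FpA p B], ρ (1 : 𝒢.obj B) = 1
  ρ_mul : ∀ {B : Type} [CommRing B] [FpA p B] (g h : 𝒢.obj B), ρ (g * h) = ρ g * ρ h
  ρ_map : ∀ {B C : Type} [CommRing B] [FpA p B] [CommRing C] [FpA p C] (φ : B →+* C)
    (g : 𝒢.obj B) (a b : ι), ρ (𝒢.map φ g) a b = φ (ρ g a b)
  ω : ι → ℤ
  ρ_sc : ∀ {B : Type} [CommRing B] [FpA p B] (u : Bˣ) (g : 𝒢.obj B) (a b : ι),
    ((u ^ ω a : Bˣ) : B) * ρ (𝒢.sc u g) a b = ρ g a b * ((u ^ ω b : Bˣ) : B)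

variable [hp : Fact p.Prime] {ι : Type} [Fintype ι] [DecidableEq ι]

section rep

variable {𝒢 : Grp p} (𝒩 : MatRep 𝒢 ι)

/-- the action on vectors -/
@[reducible] def MatRep.actV (B : Type) [CommRing B] [FpA p B] :
    DistribMulAction (𝒢.obj B) (ι → B) where
  smul g v := (𝒩.ρ g).mulVec v
  one_smul v := by
    change (𝒩.ρ 1).mulVec v = v
    rw [𝒩.ρ_one, Matrix.one_mulVec]
  mul_smul g h v := by
    change (𝒩.ρ (g * h)).mulVec v = (𝒩.ρ g).mulVec ((𝒩.ρ h).mulVec v)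
    rw [𝒩.ρ_mul, Matrix.mulVec_mulVec]
  smul_zero g := Matrix.mulVec_zero _
  smul_add g v w := Matrix.mulVec_add _ _ _

/-- the representation given by a matrix representation -/
@[reducible] def MatRep.rep : Rep 𝒢 where
  obj B _ _ := ι → B
  acg _ _ _ := inferInstance
  mod _ _ _ := inferInstance
  act B _ _ := 𝒩.actV B
  scc B _ _ := by
    let _ := 𝒩.actV B
    refine ⟨fun g b v => ?_⟩
    change (𝒩.ρ g).mulVec (b • v) = b • (𝒩.ρ g).mulVec v
    rw [Matrix.mulVec_smul]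
  map {B C} _ _ _ _ φ :=
    { toFun := fun v a => φ (v a)
      map_zero' := funext fun _ => map_zero φ
      map_add' := fun _ _ => funext fun _ => map_add φ _ _ }
  map_smulB φ b v := funext fun a => map_mul φ _ _
  map_smul {B C} _ _ _ _ φ g v := by
    funext a
    change φ ((𝒩.ρ g).mulVec v a) = (𝒩.ρ (𝒢.map φ g)).mulVec (fun a => φ (v a)) a
    simp only [Matrix.mulVec, dotProduct, map_sum, map_mul, 𝒩.ρ_map]
  sc {B} _ _ u :=
    { toFun := fun v a => ((u ^ 𝒩.ω a : Bˣ) : B) * v a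
      map_add' := fun v w => funext fun a => mul_add _ _ _
      map_smul' := fun b v => funext fun a => by
        change _ * (b * v a) = b * (_ * v a)
        ring }
  sc_smul {B} _ _ u g v := by
    funext a
    change ((u ^ 𝒩.ω a : Bˣ) : B) * (𝒩.ρ (𝒢.sc u g)).mulVec v a =
      (𝒩.ρ g).mulVec (fun a => ((u ^ 𝒩.ω a : Bˣ) : B) * v a) a
    simp only [Matrix.mulVec, dotProduct, mul_sum]
    refine sum_congr rfl fun b _ => ?_
    rw [← mul_assoc, 𝒩.ρ_sc, mul_assoc]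
  map_sc {B C} _ _ _ _ φ u v := by
    funext a
    change φ (((u ^ 𝒩.ω a : Bˣ) : B) * v a) =
      (((Units.map (φ : B →* C) u) ^ 𝒩.ω a : Cˣ) : C) * φ (v a)
    rw [map_mul, ← map_zpow]
    rfl

end rep

variable {𝒢 : Grp p} (c : Crd 𝒢) {m : ℕ} (𝒩 : MatRep (c.A m) ι)

namespace Crd

/-- the action on `𝒩 ⊗ M_j` -/
@[reducible] def actT (j : ℕ) (B : Type) [CommRing B] [FpA p B] :
    DistribMulAction ((c.A m).obj B) (ι → B[X]) where
  smul g F a := ∑ b, 𝒩.ρ g a b • taylor (-(c.x g) ^ p ^ j) (F b)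
  one_smul F := by
    funext a
    change ∑ b, 𝒩.ρ (1 : (c.A m).obj B) a b • taylor (-(c.x (1 : (c.A m).obj B)) ^ p ^ j) (F b) = F a
    rw [x_one, zero_pow (pow_pos hp.1.pos j).ne', neg_zero]
    simp only [taylor_zero, 𝒩.ρ_one, Matrix.one_apply, ite_smul, one_smul, zero_smul]
    rw [sum_ite_eq univ a, if_pos (mem_univ a)]
  mul_smul g h F := by
    funext a
    change ∑ b, 𝒩.ρ (g * h) a b • taylor (-(c.x (g * h)) ^ p ^ j) (F b) =
      ∑ b, 𝒩.ρ g a b • taylor (-(c.x g) ^ p ^ j) (∑ d, 𝒩.ρ h b d •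
        taylor (-(c.x h) ^ p ^ j) (F d))
    simp only [map_sum, map_smul, taylor_taylor, smul_sum, smul_smul]
    rw [sum_comm]
    refine sum_congr rfl fun b _ => ?_
    rw [← sum_smul, 𝒩.ρ_mul, x_mul, add_pow_pp, Matrix.mul_apply]
    congr 3
    ring_nf
  smul_zero g := by
    funext a
    change ∑ b, 𝒩.ρ g a b • taylor (-(c.x g) ^ p ^ j) (0 : B[X]) = 0
    simp
  smul_add g F F' := by
    funext a
    change ∑ b, 𝒩.ρ g a b • taylor (-(c.x g) ^ p ^ j) (F b + F' b) =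
      ∑ b, 𝒩.ρ g a b • taylor (-(c.x g) ^ p ^ j) (F b) +
      ∑ b, 𝒩.ρ g a b • taylor (-(c.x g) ^ p ^ j) (F' b)
    simp only [map_add, smul_add, sum_add_distrib]

/-- the representation `𝒩 ⊗ M_j` -/
@[reducible] def T (j : ℕ) : Rep (c.A m) where
  obj B _ _ := ι → B[X]
  acg _ _ _ := inferInstance
  mod _ _ _ := inferInstance
  act B _ _ := c.actT 𝒩 j B
  scc B _ _ := by
    let _ := c.actT 𝒩 j B
    refine ⟨fun g b F => ?_⟩
    funext a
    change ∑ d, 𝒩.ρ g a d • taylor (-(c.x g) ^ p ^ j) (b • F d) =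
      b • ∑ d, 𝒩.ρ g a d • taylor (-(c.x g) ^ p ^ j) (F d)
    simp only [map_smul, smul_sum, smul_comm b]
  map {B C} _ _ _ _ φ :=
    { toFun := fun F a => Polynomial.map φ (F a)
      map_zero' := funext fun _ => Polynomial.map_zero φ
      map_add' := fun _ _ => funext fun _ => Polynomial.map_add φ }
  map_smulB φ b F := funext fun a => Polynomial.map_smul φ b
  map_smul {B C} _ _ _ _ φ g F := by
    funext a
    change Polynomial.map φ (∑ b, 𝒩.ρ g a b • taylor (-(c.x g) ^ p ^ j) (F b)) =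
      ∑ b, 𝒩.ρ ((c.A m).map φ g) a b •
        taylor (-(c.x ((c.A m).map φ g)) ^ p ^ j) (Polynomial.map φ (F b))
    rw [Polynomial.map_sum]
    refine sum_congr rfl fun b _ => ?_
    rw [Polynomial.map_smul, map_taylor', map_neg, map_pow, ← x_map, 𝒩.ρ_map]
  sc {B} _ _ u :=
    { toFun := fun F a => ((u ^ 𝒩.ω a : Bˣ) : B) • scX ((u : B) ^ ew p m j) (F a)
      map_add' := fun F F' => funext fun a => by
        change ((u ^ 𝒩.ω a : Bˣ) : B) • scX ((u : B) ^ ew p m j) (F a + F' a) =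
          ((u ^ 𝒩.ω a : Bˣ) : B) • scX ((u : B) ^ ew p m j) (F a) +
          ((u ^ 𝒩.ω a : Bˣ) : B) • scX ((u : B) ^ ew p m j) (F' a)
        rw [map_add, smul_add]
      map_smul' := fun b F => funext fun a => by
        change ((u ^ 𝒩.ω a : Bˣ) : B) • scX ((u : B) ^ ew p m j) (b • F a) =
          b • (((u ^ 𝒩.ω a : Bˣ) : B) • scX ((u : B) ^ ew p m j) (F a))
        rw [map_smul, smul_comm] }
  sc_smul {B} _ _ u g F := by
    funext a
    change ((u ^ 𝒩.ω a : Bˣ) : B) • scX ((u : B) ^ ew p m j)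
        (∑ b, 𝒩.ρ ((c.A m).sc u g) a b • taylor (-(c.x ((c.A m).sc u g)) ^ p ^ j) (F b)) =
      ∑ b, 𝒩.ρ g a b • taylor (-(c.x g) ^ p ^ j)
        (((u ^ 𝒩.ω b : Bˣ) : B) • scX ((u : B) ^ ew p m j) (F b))
    simp only [map_sum, map_smul, smul_sum]
    refine sum_congr rfl fun b _ => ?_
    rw [smul_smul, 𝒩.ρ_sc, ← smul_smul]
    congr 2
    rw [x_sc, mul_pow, ← pow_mul, ← scX_taylor]
    congr 2
    rw [ew]
    ring
  map_sc {B C} _ _ _ _ φ u F := by
    funext a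
    change Polynomial.map φ (((u ^ 𝒩.ω a : Bˣ) : B) • scX ((u : B) ^ ew p m j) (F a)) =
      (((Units.map (φ : B →* C) u) ^ 𝒩.ω a : Cˣ) : C) • scX _ (Polynomial.map φ (F a))
    rw [Polynomial.map_smul, map_scX, map_pow, ← map_zpow]
    rfl

/-- apply a linear map of polynomials componentwise -/
def comp' {B : Type} [CommRing B] (L : B[X] →ₗ[B] B[X]) : (ι → B[X]) →ₗ[B] (ι → B[X]) where
  toFun F a := L (F a)
  map_add' F F' := funext fun a => map_add L _ _
  map_smul' b F := funext fun a => map_smul L _ _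

theorem pow_neg_p {B : Type} [CommRing B] [FpA p B] (y : B) : (-y) ^ p = - y ^ p := by
  have h1 := add_pow_p (p := p) y (-y)
  rw [add_neg_cancel, zero_pow hp.1.pos.ne'] at h1
  exact (neg_eq_of_add_eq_zero_right h1.symm).symm

theorem neg_pow_succ {B : Type} [CommRing B] [FpA p B] (y : B) (j : ℕ) :
    -y ^ p ^ (j + 1) = (-y ^ p ^ j) ^ p := by
  rw [pow_neg_p, ← pow_mul, ← pow_succ]

/-- `f(y) ↦ f(y^p)` -/
def Ti (j : ℕ) : RHom (c.T 𝒩 (j + 1)) (c.T 𝒩 j) where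
  h {B} _ _ := comp' (expand B p).toLinearMap
  nat {B B'} _ _ _ _ φ F := funext fun a => (map_expand (f := φ)).symm
  scal {B} _ _ u F := by
    funext a
    change expand B p (((u ^ 𝒩.ω a : Bˣ) : B) • scX ((u : B) ^ ew p m (j + 1)) (F a)) =
      ((u ^ 𝒩.ω a : Bˣ) : B) • scX ((u : B) ^ ew p m j) (expand B p (F a))
    rw [map_smul, expand_scX, ← pow_mul, ew_succ]
  eqv {B} _ _ g F := by
    funext a
    change expand B p (∑ b, 𝒩.ρ g a b • taylor (-(c.x g) ^ p ^ (j + 1)) (F b)) =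
      ∑ b, 𝒩.ρ g a b • taylor (-(c.x g) ^ p ^ j) (expand B p (F b))
    rw [map_sum]
    refine sum_congr rfl fun b _ => ?_
    rw [map_smul, taylor_expand, neg_pow_succ]

/-- the derivative -/
def Td (j : ℕ) : RHom (c.T 𝒩 j) ((c.T 𝒩 j).shift (ew p m j)) where
  h {B} _ _ := comp' (derivative : B[X] →ₗ[B] B[X])
  nat φ F := funext fun a => (derivative_map (F a) φ)
  scal {B} _ _ u F := by
    funext a
    change derivative (((u ^ 𝒩.ω a : Bˣ) : B) • scX ((u : B) ^ ew p m j) (F a)) =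
      ((u ^ (ew p m j : ℤ) : Bˣ) : B) • (((u ^ 𝒩.ω a : Bˣ) : B) • scX ((u : B) ^ ew p m j)
        (derivative (F a)))
    rw [map_smul, derivative_scX, zpow_natCast, Units.val_pow_eq_pow_val, smul_comm]
  eqv {B} _ _ g F := by
    funext a
    change derivative (∑ b, 𝒩.ρ g a b • taylor (-(c.x g) ^ p ^ j) (F b)) =
      ∑ b, 𝒩.ρ g a b • taylor (-(c.x g) ^ p ^ j) (derivative (F b))
    rw [map_sum]
    refine sum_congr rfl fun b _ => ?_
    rw [map_smul, taylor_derivative]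

/-- the top digit -/
def Tr (j : ℕ) :
    RHom ((c.T 𝒩 j).shift (ew p m j)) ((c.T 𝒩 (j + 1)).shift (ew p m (j + 1))) where
  h {B} _ _ := comp' (digit p (p - 1) : B[X] →ₗ[B] B[X])
  nat φ F := funext fun a => (map_digit φ (p - 1) (F a)).symm
  scal {B} _ _ u F := by
    funext a
    change digit p (p - 1) (((u ^ (ew p m j : ℤ) : Bˣ) : B) • (((u ^ 𝒩.ω a : Bˣ) : B) •
        scX ((u : B) ^ ew p m j) (F a))) =
      ((u ^ (ew p m (j + 1) : ℤ) : Bˣ) : B) • (((u ^ 𝒩.ω a : Bˣ) : B) •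
        scX ((u : B) ^ ew p m (j + 1)) (digit p (p - 1) (F a)))
    rw [zpow_natCast, Units.val_pow_eq_pow_val, zpow_natCast, Units.val_pow_eq_pow_val,
      map_smul, map_smul, digit_scX, smul_comm ((u : B) ^ ew p m j),
      smul_comm ((u : B) ^ ew p m (j + 1))]
    congr 1
    rw [smul_smul, ← pow_mul, ← pow_mul, ← pow_add, ew_succ]
    congr 2
    have : p - 1 + 1 = p := Nat.sub_add_cancel hp.1.one_lt.le
    calc ew p m j + ew p m j * (p - 1) = ew p m j * (p - 1 + 1) := by ring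
      _ = _ := by rw [this]
  eqv {B} _ _ g F := by
    funext a
    change digit p (p - 1) (∑ b, 𝒩.ρ g a b • taylor (-(c.x g) ^ p ^ j) (F b)) =
      ∑ b, 𝒩.ρ g a b • taylor (-(c.x g) ^ p ^ (j + 1)) (digit p (p - 1) (F b))
    rw [map_sum]
    refine sum_congr rfl fun b _ => ?_
    rw [map_smul, digit_taylor, neg_pow_succ]

/-- the antiderivative -/
def Tsδ (j : ℕ) : RLin ((c.T 𝒩 j).shift (ew p m j)) (c.T 𝒩 j) where
  h {B} _ _ := comp' (anti p : B[X] →ₗ[B] B[X])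
  nat φ F := funext fun a => (map_anti φ (F a)).symm
  scal {B} _ _ u F := by
    funext a
    change anti p (((u ^ (ew p m j : ℤ) : Bˣ) : B) • (((u ^ 𝒩.ω a : Bˣ) : B) •
        scX ((u : B) ^ ew p m j) (F a))) =
      ((u ^ 𝒩.ω a : Bˣ) : B) • scX ((u : B) ^ ew p m j) (anti p (F a))
    rw [anti_scX, zpow_natCast, Units.val_pow_eq_pow_val, map_smul, map_smul, smul_comm]

/-- the section of the top digit -/
def Tsr (j : ℕ) :
    RLin ((c.T 𝒩 (j + 1)).shift (ew p m (j + 1))) ((c.T 𝒩 j).shift (ew p m j)) where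
  h {B} _ _ := comp' (undigit p (p - 1) : B[X] →ₗ[B] B[X])
  nat φ F := funext fun a => (map_undigit φ (p - 1) (F a)).symm
  scal {B} _ _ u F := by
    funext a
    change undigit p (p - 1) (((u ^ (ew p m (j + 1) : ℤ) : Bˣ) : B) • (((u ^ 𝒩.ω a : Bˣ) : B) •
        scX ((u : B) ^ ew p m (j + 1)) (F a))) =
      ((u ^ (ew p m j : ℤ) : Bˣ) : B) • (((u ^ 𝒩.ω a : Bˣ) : B) •
        scX ((u : B) ^ ew p m j) (undigit p (p - 1) (F a)))
    rw [zpow_natCast, Units.val_pow_eq_pow_val, zpow_natCast, Units.val_pow_eq_pow_val,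
      map_smul, map_smul, undigit_scX, smul_comm ((u : B) ^ ew p m j),
      smul_comm ((u : B) ^ ew p m (j + 1))]
    congr 1
    rw [smul_smul, ← pow_mul, ← pow_mul, ← pow_add, ew_succ]
    congr 2
    have : p - 1 + 1 = p := Nat.sub_add_cancel hp.1.one_lt.le
    calc _ = ew p m j * (p - 1 + 1) := by rw [this]
      _ = _ := by ring

/-- the four term exact sequence with coefficients -/
def fourT (j : ℕ) : Four (c.T 𝒩 (j + 1)) (c.T 𝒩 j) ((c.T 𝒩 j).shift (ew p m j))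
    ((c.T 𝒩 (j + 1)).shift (ew p m (j + 1))) where
  i := c.Ti 𝒩 j
  δ := c.Td 𝒩 j
  r := c.Tr 𝒩 j
  sδ := c.Tsδ 𝒩 j
  sr := c.Tsr 𝒩 j
  i_inj := by
    intro B _ _ F F' h
    funext a
    exact expand_injective hp.1.pos (congrFun h a)
  δ_i F := funext fun a => derivative_expand' (F a)
  exact F hF := ⟨fun a => digit p 0 (F a), funext fun a => expand_digit_zero (congrFun hF a)⟩
  δ_sδ F hF := funext fun a => derivative_anti (congrFun hF a)
  r_δ F := funext fun a => digit_derivative (F a)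
  r_sr F := funext fun a => digit_undigit _ (F a)

/-- the vanishing step -/
theorem van_T_succ {n j : ℕ} {w : ℤ} (h1 : Van (pt (c.A m)) (c.T 𝒩 j) n w)
    (h2 : ∀ k, n = k + 1 → Van (pt (c.A m)) (c.T 𝒩 j) k (w - ew p m j))
    (h3 : ∀ k, n = k + 2 → Van (pt (c.A m)) (c.T 𝒩 (j + 1)) k (w - ew p m (j + 1))) :
    Van (pt (c.A m)) (c.T 𝒩 (j + 1)) n w :=
  (c.fourT 𝒩 j).van h1 (fun k hk => van_shift.2 (h2 k hk)) (fun k hk => van_shift.2 (h3 k hk))

end Crd

end Vale.Agent.P257.H919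

end
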