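import Vale.Agent.P257.H919.Crd

/-! # P257 / H919 / ModM : the modules `M_j = B[y]` over `A_m` -/

noncomputable section

namespace Vale.Agent.P257.H919

open Vale.Agent.P251.F.F3 Vale.Agent.P257.H93 Finset Polynomial

variable {p : ℕ} [hp : Fact p.Prime] {𝒢 : Grp p} (c : Crd 𝒢) {m : ℕ}

namespace Crd

/-- the weight of `t_{m+1}^{p^j}` -/
def ew (p m j : ℕ) : ℕ := (p ^ (m + 1) - 1) * p ^ j

theorem ew_succ (p m j : ℕ) : ew p m (j + 1) = ew p m j * p := by
  unfold ew
  rw [pow_succ p j, mul_assoc]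

/-- the action of `g` on `B[y]`: `f(y) ↦ f(y - x(g)^{p^j})` -/
@[reducible] def actM (m j : ℕ) (B : Type) [CommRing B] [FpA p B] :
    DistribMulAction ((c.A m).obj B) B[X] where
  smul g f := taylor (-(c.x g) ^ p ^ j) f
  one_smul f := by
    change taylor (-(c.x 1) ^ p ^ j) f = f
    rw [x_one, zero_pow (pow_pos hp.1.pos j).ne', neg_zero, taylor_zero]
  mul_smul g h f := by
    change taylor (-(c.x (g * h)) ^ p ^ j) f =
      taylor (-(c.x g) ^ p ^ j) (taylor (-(c.x h) ^ p ^ j) f)
    rw [taylor_taylor, x_mul, add_pow_pp]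
    congr 1
    ring
  smul_zero g := map_zero _
  smul_add g f f' := map_add _ _ _

theorem sccM (m j : ℕ) (B : Type) [CommRing B] [FpA p B] :
    let _ := c.actM m j B
    SMulCommClass ((c.A m).obj B) B B[X] := by
  let _ := c.actM m j B
  refine ⟨fun g b f => ?_⟩
  change taylor _ (b • f) = b • taylor _ f
  rw [map_smul]

/-- the representation `M_j` -/
@[reducible] def M (m j : ℕ) : Rep (c.A m) where
  obj B _ _ := B[X]
  acg _ _ _ := inferInstance
  mod _ _ _ := inferInstance
  act B _ _ := c.actM m j B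
  scc B _ _ := c.sccM m j B
  map φ := (Polynomial.mapRingHom φ).toAddMonoidHom
  map_smulB φ b f := by
    change Polynomial.map φ (b • f) = φ b • Polynomial.map φ f
    rw [Polynomial.map_smul]
  map_smul φ g f := by
    change Polynomial.map φ (taylor (-(c.x g) ^ p ^ j) f) =
      taylor (-(c.x ((c.A m).map φ g)) ^ p ^ j) (Polynomial.map φ f)
    rw [map_taylor', x_map, map_neg, map_pow]
  sc u := scX ((u : _) ^ ew p m j)
  sc_smul {B} _ _ u g f := by
    change scX ((u : B) ^ ew p m j) (taylor (-(c.x ((c.A m).sc u g)) ^ p ^ j) f) =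
      taylor (-(c.x g) ^ p ^ j) (scX ((u : B) ^ ew p m j) f)
    rw [x_sc, mul_pow, ← pow_mul, ← scX_taylor]
    congr 2
    rw [ew]
    ring
  map_sc {B C} _ _ _ _ φ u f := by
    change Polynomial.map φ (scX ((u : B) ^ ew p m j) f) = _
    rw [map_scX, map_pow]
    rfl

theorem M_smul (m j : ℕ) {B : Type} [CommRing B] [FpA p B] (g : (c.A m).obj B) (f : B[X]) :
    ((c.M m j).act B).toSMul.smul g f = taylor (-(c.x g) ^ p ^ j) f := rfl

/-- `f(y) ↦ f(y^p)` -/
def Mi (m j : ℕ) : RHom (c.M m (j + 1)) (c.M m j) where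
  h {B} _ _ := (expand B p).toLinearMap
  nat φ f := (map_expand (f := φ)).symm
  scal {B} _ _ u f := by
    change expand B p (scX ((u : B) ^ ew p m (j + 1)) f) =
      scX ((u : B) ^ ew p m j) (expand B p f)
    rw [expand_scX, ← pow_mul, ew_succ]
  eqv {B} _ _ g f := by
    change expand B p (taylor (-(c.x g) ^ p ^ (j + 1)) f) =
      taylor (-(c.x g) ^ p ^ j) (expand B p f)
    rw [taylor_expand]
    congr 2
    rw [pow_succ, pow_mul]
    have h1 := add_pow_p (p := p) (c.x g ^ p ^ j) (-(c.x g) ^ p ^ j)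
    rw [add_neg_cancel, zero_pow hp.1.pos.ne'] at h1
    exact congrArg taylor (neg_eq_of_add_eq_zero_right h1.symm)

/-- the derivative -/
def Md (m j : ℕ) : RHom (c.M m j) ((c.M m j).shift (ew p m j)) where
  h {B} _ _ := (derivative : B[X] →ₗ[B] B[X])
  nat φ f := (derivative_map f φ)
  scal {B} _ _ u f := by
    change derivative (scX ((u : B) ^ ew p m j) f) =
      (((u ^ (ew p m j : ℤ) : Bˣ) : B) • scX ((u : B) ^ ew p m j)) (derivative f)
    rw [derivative_scX, zpow_natCast, Units.val_pow_eq_pow_val, LinearMap.smul_apply]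
  eqv {B} _ _ g f := taylor_derivative _ f

/-- the top digit -/
def Mr (m j : ℕ) :
    RHom ((c.M m j).shift (ew p m j)) ((c.M m (j + 1)).shift (ew p m (j + 1))) where
  h {B} _ _ := (digit p (p - 1) : B[X] →ₗ[B] B[X])
  nat φ f := (map_digit φ (p - 1) f).symm
  scal {B} _ _ u f := by
    change digit p (p - 1) ((((u ^ (ew p m j : ℤ) : Bˣ) : B) • scX ((u : B) ^ ew p m j)) f) =
      ((((u ^ (ew p m (j + 1) : ℤ) : Bˣ) : B) • scX ((u : B) ^ ew p m (j + 1)))
        (digit p (p - 1) f))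
    rw [zpow_natCast, Units.val_pow_eq_pow_val, zpow_natCast, Units.val_pow_eq_pow_val,
      LinearMap.smul_apply, LinearMap.smul_apply, map_smul, digit_scX, smul_smul, ← pow_mul,
      ← pow_mul, ← pow_add, ew_succ]
    congr 2
    have : p - 1 + 1 = p := Nat.sub_add_cancel hp.1.one_lt.le
    calc ew p m j + ew p m j * (p - 1) = ew p m j * (p - 1 + 1) := by ring
      _ = _ := by rw [this]
  eqv {B} _ _ g f := by
    change digit p (p - 1) (taylor (-(c.x g) ^ p ^ j) f) =
      taylor (-(c.x g) ^ p ^ (j + 1)) (digit p (p - 1) f)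
    rw [digit_taylor]
    congr 2
    rw [pow_succ, pow_mul]
    have h1 := add_pow_p (p := p) (c.x g ^ p ^ j) (-(c.x g) ^ p ^ j)
    rw [add_neg_cancel, zero_pow hp.1.pos.ne'] at h1
    exact (neg_eq_of_add_eq_zero_right h1.symm).symm

/-- the antiderivative -/
def Msδ (m j : ℕ) : RLin ((c.M m j).shift (ew p m j)) (c.M m j) where
  h {B} _ _ := (anti p : B[X] →ₗ[B] B[X])
  nat φ f := (map_anti φ f).symm
  scal {B} _ _ u f := by
    change anti p ((((u ^ (ew p m j : ℤ) : Bˣ) : B) • scX ((u : B) ^ ew p m j)) f) =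
      scX ((u : B) ^ ew p m j) (anti p f)
    rw [anti_scX, zpow_natCast, Units.val_pow_eq_pow_val, LinearMap.smul_apply, map_smul]

/-- the section of the top digit -/
def Msr (m j : ℕ) :
    RLin ((c.M m (j + 1)).shift (ew p m (j + 1))) ((c.M m j).shift (ew p m j)) where
  h {B} _ _ := (undigit p (p - 1) : B[X] →ₗ[B] B[X])
  nat φ f := (map_undigit φ (p - 1) f).symm
  scal {B} _ _ u f := by
    change undigit p (p - 1) ((((u ^ (ew p m (j + 1) : ℤ) : Bˣ) : B) •
        scX ((u : B) ^ ew p m (j + 1))) f) =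
      ((((u ^ (ew p m j : ℤ) : Bˣ) : B) • scX ((u : B) ^ ew p m j)) (undigit p (p - 1) f))
    rw [zpow_natCast, Units.val_pow_eq_pow_val, zpow_natCast, Units.val_pow_eq_pow_val,
      LinearMap.smul_apply, LinearMap.smul_apply, map_smul, undigit_scX, smul_smul, ← pow_mul,
      ← pow_mul, ← pow_add, ew_succ]
    congr 2
    have : p - 1 + 1 = p := Nat.sub_add_cancel hp.1.one_lt.le
    calc _ = ew p m j * (p - 1 + 1) := by rw [this]
      _ = _ := by ring

/-- the four term exact sequence `0 → M_{j+1} → M_j → M_j → M_{j+1} → 0` -/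
def four (m j : ℕ) : Four (c.M m (j + 1)) (c.M m j) ((c.M m j).shift (ew p m j))
    ((c.M m (j + 1)).shift (ew p m (j + 1))) where
  i := c.Mi m j
  δ := c.Md m j
  r := c.Mr m j
  sδ := c.Msδ m j
  sr := c.Msr m j
  i_inj := by
    intro B _ _
    exact expand_injective hp.1.pos
  δ_i f := derivative_expand' f
  exact f hf := ⟨digit p 0 f, expand_digit_zero hf⟩
  δ_sδ f hf := derivative_anti hf
  r_δ f := digit_derivative f
  r_sr f := digit_undigit _ f

/-- the vanishing step -/
theorem van_M_succ {n j : ℕ} {w : ℤ} (h1 : Van (pt (c.A m)) (c.M m j) n w)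
    (h2 : ∀ k, n = k + 1 → Van (pt (c.A m)) (c.M m j) k (w - ew p m j))
    (h3 : ∀ k, n = k + 2 → Van (pt (c.A m)) (c.M m (j + 1)) k (w - ew p m (j + 1))) :
    Van (pt (c.A m)) (c.M m (j + 1)) n w :=
  (c.four m j).van h1 (fun k hk => van_shift.2 (h2 k hk)) (fun k hk => van_shift.2 (h3 k hk))

end Crd

end Vale.Agent.P257.H919

end
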