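import Vale.Agent.P257.H919.Wts

/-! # P257 / H919 / Neg : cochains of small weight -/

noncomputable section

namespace Vale.Agent.P257.H919

open Vale.Agent.P251.F.F3 Vale.Agent.P257.H93 Finset Polynomial

variable {p : ℕ} [hp : Fact p.Prime] {𝒢 : Grp p} (c : Crd 𝒢) {m : ℕ}

instance fpaLaurent {B : Type} [CommRing B] [FpA p B] : FpA p (LaurentPolynomial B) :=
  FpA.of_hom (LaurentPolynomial.C : B →+* LaurentPolynomial B)

/-- the unit `T` -/
def uT (B : Type) [CommRing B] : (LaurentPolynomial B)ˣ where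
  val := LaurentPolynomial.T 1
  inv := LaurentPolynomial.T (-1)
  val_inv := by rw [← LaurentPolynomial.T_add]; rfl
  inv_val := by rw [← LaurentPolynomial.T_add]; rfl

theorem val_uT (B : Type) [CommRing B] : ((uT B : (LaurentPolynomial B)ˣ) :
    LaurentPolynomial B) = toLaurent (X : B[X]) := toLaurent_X.symm

theorem val_uT_zpow (B : Type) [CommRing B] (n : ℕ) : (((uT B) ^ (n : ℤ) : (LaurentPolynomial B)ˣ) :
    LaurentPolynomial B) = toLaurent ((X : B[X]) ^ n) := by
  rw [zpow_natCast, Units.val_pow_eq_pow_val, val_uT, map_pow]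

namespace Crd

variable {B : Type} [CommRing B] [FpA p B]

/-- the rescaled chain over `B[T]` -/
def gT (g : ℕ → (c.A m).obj B) : ℕ → (c.A m).obj B[X] := fun k =>
  c.mkA m fun i => X ^ (p ^ i - 1) * C (c.t (g k : 𝒢.obj B) i)

theorem map_gT (g : ℕ → (c.A m).obj B) (k : ℕ) :
    (c.A m).map (toLaurent : B[X] →+* LaurentPolynomial B) (c.gT g k) =
      (c.A m).sc (uT B) ((c.A m).map (LaurentPolynomial.C : B →+* LaurentPolynomial B) (g k)) := by
  apply c.A_ext
  intro i hi
  change c.t (𝒢.map _ _) _ = c.t (𝒢.sc _ (𝒢.map _ _)) _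
  rw [c.t_map, c.t_sc, c.t_map, gT, c.t_mkA _ hi, map_mul, map_pow, toLaurent_C, val_uT]

theorem key_M {j n : ℕ} {w : ℤ} {F : Coch (pt (c.A m)) (c.M m j) n} (hF : F.IsWt w)
    (g : ℕ → (c.A m).obj B) (k : ℕ) :
    toLaurent ((F.f () (c.gT g)).coeff k) * toLaurent ((X : B[X]) ^ (ew p m j * k)) =
      (((uT B) ^ w : (LaurentPolynomial B)ˣ) : LaurentPolynomial B) *
        LaurentPolynomial.C ((F.f () g).coeff k) := by
  have h1 := F.nat (toLaurent : B[X] →+* LaurentPolynomial B) () (c.gT g)
  have h2 := F.nat (LaurentPolynomial.C : B →+* LaurentPolynomial B) () g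
  have h3 := hF (uT B) ()
    (fun k => (c.A m).map (LaurentPolynomial.C : B →+* LaurentPolynomial B) (g k))
  have h4 : (fun k => (c.A m).map (toLaurent : B[X] →+* LaurentPolynomial B) (c.gT g k)) =
      fun k => (c.A m).sc (uT B)
        ((c.A m).map (LaurentPolynomial.C : B →+* LaurentPolynomial B) (g k)) :=
    funext fun k => c.map_gT g k
  rw [h4] at h1
  change F.f () _ = Polynomial.map _ _ at h1
  change F.f () _ = Polynomial.map _ _ at h2
  change scX _ (F.f () _) = _ • F.f () _ at h3
  rw [h1, h2] at h3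
  have h5 := congrArg (fun f => coeff f k) h3
  simp only [coeff_scX, coeff_map, coeff_smul, smul_eq_mul] at h5
  rw [← h5, val_uT, ← map_pow, ← map_pow, ← pow_mul]

/-- coefficients of negative weight vanish -/
theorem coeff_eq_zero {j n : ℕ} {w : ℤ} {F : Coch (pt (c.A m)) (c.M m j) n} (hF : F.IsWt w)
    (g : ℕ → (c.A m).obj B) {k : ℕ} (hk : w < ew p m j * k) : (F.f () g).coeff k = 0 := by
  have h := c.key_M hF g k
  obtain ⟨r, hr⟩ : ∃ r : ℕ, ((ew p m j * k : ℕ) : ℤ) = w + (r + 1) :=
    ⟨(((ew p m j * k : ℕ) : ℤ) - w - 1).toNat, by push_cast at hk ⊢; omega⟩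
  have h2 : toLaurent ((X : B[X]) ^ (ew p m j * k)) =
      (((uT B) ^ w : (LaurentPolynomial B)ˣ) : LaurentPolynomial B) *
        toLaurent ((X : B[X]) ^ (r + 1)) := by
    rw [← val_uT_zpow, ← val_uT_zpow, ← Units.val_mul, ← zpow_add, hr]
    push_cast
    rfl
  rw [h2, mul_left_comm] at h
  have h3 := (Units.mul_right_inj _).1 h
  rw [← map_mul, ← toLaurent_C] at h3
  have h4 := toLaurent_injective h3
  have h5 := congrArg (fun f => coeff f 0) h4
  simp only [coeff_C_zero] at h5
  rw [← h5, mul_comm, coeff_zero_eq_eval_zero, eval_mul, eval_pow, eval_X,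
    zero_pow (Nat.succ_ne_zero r), zero_mul]

/-- inclusion of the constants -/
def Mc (m j : ℕ) : RHom (triv (c.A m)) (c.M m j) where
  h {B} _ _ := (monomial 0 : B →ₗ[B] B[X])
  nat φ b := by
    change monomial 0 (φ b) = Polynomial.map φ (monomial 0 b)
    rw [map_monomial]
  scal {B} _ _ u b := by
    change monomial 0 b = (monomial 0 b).comp _
    rw [monomial_zero_left, C_comp]
  eqv {B} _ _ g b := by
    change monomial 0 b = taylor _ (monomial 0 b)
    rw [monomial_zero_left, taylor_C]

theorem push_Mc_injective {j n : ℕ} :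
    Function.Injective (Coch.push (c.Mc m j) : Coch (pt (c.A m)) _ n → _) := fun _ _ h =>
  Coch.ext' fun x g => monomial_injective 0
    (congrArg (fun F : Coch (pt (c.A m)) (c.M m j) n => F.f x g) h)

/-- cochains of weight less than the weight of `y` are constant -/
theorem exists_push_Mc {j n : ℕ} {w : ℤ} {F : Coch (pt (c.A m)) (c.M m j) n} (hF : F.IsWt w)
    (hw : w < ew p m j) : ∃ E : Coch (pt (c.A m)) (triv (c.A m)) n, E.IsWt w ∧
      E.push (c.Mc m j) = F := by
  have h : ∀ {B : Type} [CommRing B] [FpA p B] (g : ℕ → (c.A m).obj B),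
      F.f () g = monomial 0 ((F.f () g).coeff 0) := by
    intro B _ _ g
    ext k
    rcases k with _ | k
    · rw [coeff_monomial, if_pos rfl]
    · rw [coeff_monomial, if_neg (by omega)]
      apply c.coeff_eq_zero hF
      push_cast
      nlinarith [Int.natCast_nonneg (ew p m j * k), Int.natCast_nonneg k,
        Int.natCast_nonneg (ew p m j)]
  have key : ∃ E : Coch (pt (c.A m)) (triv (c.A m)) n, E.push (c.Mc m j) = F := by
    refine ⟨{ f := fun _ g => (F.f () g).coeff 0, nat := ?_, loc := ?_, eqv := ?_ }, ?_⟩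
    · intro B C _ _ _ _ φ x g
      have h1 := F.nat φ () g
      change (F.f () _).coeff 0 = φ ((F.f () g).coeff 0)
      rw [h1]
      exact coeff_map φ 0
    · intro B _ _ x g g' hg
      rw [F.loc () g g' hg]
    · intro B _ _ k x g
      have h1 := F.eqv k () g
      change F.f () _ = taylor _ (F.f () g) at h1
      change (F.f () _).coeff 0 = (F.f () g).coeff 0
      rw [h1]
      conv_lhs => rw [h g, monomial_zero_left, taylor_C, coeff_C_zero]
    · exact Coch.ext' fun {B} _ _ x g => (h g).symm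
  obtain ⟨E, rfl⟩ := key
  refine ⟨E, fun {B} _ _ u x g => ?_, rfl⟩
  apply monomial_injective 0
  have h1 := hF u () g
  rw [Coch.push_f, Coch.push_f, ← (c.Mc m j).scal, ← map_smul] at h1
  exact h1

/-- `M_∞`: for small weights the coefficients `M_j` can be replaced by the trivial ones -/
theorem van_triv_of_M {j n : ℕ} {w : ℤ} (hw : w < ew p m j)
    (h : Van (pt (c.A m)) (c.M m j) n w) : Van (pt (c.A m)) (triv (c.A m)) n w := by
  rcases n with _ | n
  · rw [van_zero] at *
    intro F hF hd
    apply c.push_Mc_injective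
    rw [h (F.push (c.Mc m j)) (hF.push _) (by rw [Coch.push_d, hd, Coch.push_zero]),
      Coch.push_zero]
  · rw [van_succ] at *
    intro F hF hd
    obtain ⟨E, hE, hdE⟩ := h (F.push (c.Mc m j)) (hF.push _)
      (by rw [Coch.push_d, hd, Coch.push_zero])
    obtain ⟨E', hE', rfl⟩ := c.exists_push_Mc hE hw
    exact ⟨E', hE', c.push_Mc_injective (by rw [← Coch.push_d, hdE])⟩

end Crd

end Vale.Agent.P257.H919

end
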