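import Vale.Agent.P257.H919.Neg

/-! # P257 / H919 / Small : the cohomology of `A_m` in weights `< p^{m+1} - 1` -/

noncomputable section

namespace Vale.Agent.P257.H919

open Vale.Agent.P251.F.F3 Vale.Agent.P257.H93 Finset Polynomial

variable {p : ℕ} [hp : Fact p.Prime] {𝒢 : Grp p} (c : Crd 𝒢) {m : ℕ}

namespace Crd

variable {B : Type} [CommRing B] [FpA p B]

theorem key_triv {n : ℕ} {w : ℤ} {F : Coch (pt (c.A m)) (triv (c.A m)) n} (hF : F.IsWt w)
    (g : ℕ → (c.A m).obj B) :
    toLaurent (F.f () (c.gT g)) = (((uT B) ^ w : (LaurentPolynomial B)ˣ) : LaurentPolynomial B) *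
        LaurentPolynomial.C (F.f () g) := by
  have h := c.key_M (j := 0) (hF.push (c.Mc m 0)) g 0
  rw [mul_zero, pow_zero, map_one, mul_one] at h
  have h1 : ∀ (B : Type) [CommRing B] [FpA p B] (g : ℕ → (c.A m).obj B),
      ((F.push (c.Mc m 0)).f () g).coeff 0 = F.f () g := by
    intro B _ _ g
    change (monomial 0 (F.f () g)).coeff 0 = _
    rw [coeff_monomial, if_pos rfl]
  rw [h1, h1] at h
  exact h

theorem triv_neg {n : ℕ} {w : ℤ} {F : Coch (pt (c.A m)) (triv (c.A m)) n} (hF : F.IsWt w)
    (hw : w < 0) : F = 0 := Coch.ext' fun {B} _ _ _ g => by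
  have h := c.coeff_eq_zero (j := 0) (hF.push (c.Mc m 0)) g (k := 0) (by simpa using hw)
  change (monomial 0 (F.f () g)).coeff 0 = 0 at h
  rwa [coeff_monomial, if_pos rfl] at h

theorem triv_small {n w : ℕ} {F : Coch (pt (c.A m)) (triv (c.A m)) n} (hF : F.IsWt w)
    (hw : w < p ^ (m + 1) - 1) (g : ℕ → (c.A m).obj B) :
    F.f () g = if w = 0 then F.f () (fun _ => (1 : (c.A m).obj B)) else 0 := by
  have h := c.key_triv hF g
  rw [val_uT_zpow, ← toLaurent_C, ← map_mul] at h
  have h1 := toLaurent_injective h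
  set I : Ideal B[X] := Ideal.span {(X : B[X]) ^ (p ^ (m + 1) - 1)} with hI
  have : FpA p (B[X] ⧸ I) := FpA.of_hom (Ideal.Quotient.mk I)
  have h2 : (fun k => (c.A m).map (Ideal.Quotient.mk I) (c.gT g k)) =
      fun k => (c.A m).map (Ideal.Quotient.mk I) ((c.A m).map (C : B →+* B[X]) 1) := by
    funext k
    rw [map_one, map_one]
    apply c.A_ext
    intro i hi
    change c.t (𝒢.map _ _) _ = c.t (1 : 𝒢.obj _) _
    rw [c.t_map, c.t_one, gT, c.t_mkA _ hi, Ideal.Quotient.eq_zero_iff_mem, hI,
      Ideal.mem_span_singleton]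
    refine Dvd.dvd.mul_right (pow_dvd_pow _ ?_) _
    have := Nat.pow_le_pow_right hp.1.pos (show m + 1 ≤ i + 1 by omega)
    omega
  have h3 := F.nat (Ideal.Quotient.mk I) () (c.gT g)
  have h4 := F.nat (Ideal.Quotient.mk I) () (fun _ => (c.A m).map (C : B →+* B[X]) 1)
  have h5 := F.nat (C : B →+* B[X]) () (fun _ => (1 : (c.A m).obj B))
  rw [h2] at h3
  rw [h3] at h4
  change Ideal.Quotient.mk I _ = Ideal.Quotient.mk I _ at h4
  change F.f () _ = C (F.f () _) at h5
  rw [h5, h1, ← sub_eq_zero, ← map_sub, Ideal.Quotient.eq_zero_iff_mem, hI,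
    Ideal.mem_span_singleton, X_pow_dvd_iff] at h4
  have h6 := h4 w hw
  rw [coeff_sub, mul_comm, coeff_C_mul, coeff_X_pow_self, mul_one, coeff_C, sub_eq_zero] at h6
  exact h6

/-- the constant cochain with the value of `F` at `1` -/
def const {n : ℕ} (k : ℕ) (F : Coch (pt (c.A m)) (triv (c.A m)) n) :
    Coch (pt (c.A m)) (triv (c.A m)) k where
  f {B} _ _ _ _ := F.f () (fun _ => (1 : (c.A m).obj B))
  nat φ _ _ := by
    rw [← F.nat]
    congr 1
    funext k
    rw [map_one]
  loc _ _ _ _ := rfl
  eqv _ _ _ := rfl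

omit hp in
theorem van_of_eq_zero {𝒢 : Grp p} {𝒳 : GSet 𝒢} {ℳ : Rep 𝒢} {n : ℕ} {w : ℤ}
    (h : ∀ F : Coch 𝒳 ℳ n, F.IsWt w → F = 0) : Van 𝒳 ℳ n w := by
  rcases n with _ | n
  · exact fun F hF _ => h F hF
  · exact fun F hF _ => ⟨0, Coch.isWt_zero w, by rw [h F hF, Coch.d_zero]⟩

/-- `A_m` has no cohomology in tridegrees `(n, w)`, `w < p^{m+1}-1`, except `(0, 0)`. -/
theorem van_small {n : ℕ} {w : ℤ} (hw : w < (p ^ (m + 1) - 1 : ℕ)) (h0 : ¬ (n = 0 ∧ w = 0)) :
    Van (pt (c.A m)) (triv (c.A m)) n w := by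
  rcases lt_or_ge w 0 with h | h
  · exact van_of_eq_zero fun F hF => c.triv_neg hF h
  · obtain ⟨w, rfl⟩ := Int.eq_ofNat_of_zero_le h
    have hw' : w < p ^ (m + 1) - 1 := by exact_mod_cast hw
    rcases Nat.eq_zero_or_pos w with rfl | hpos
    · intro F hF hd
      have hc : ∀ {B : Type} [CommRing B] [FpA p B] (g : ℕ → (c.A m).obj B),
          F.f () g = F.f () (fun _ => (1 : (c.A m).obj B)) := by
        intro B _ _ g
        have := c.triv_small hF hw' g
        rwa [if_pos rfl] at this
      rcases n with _ | n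
      · exact absurd ⟨rfl, rfl⟩ h0
      · have hsum : ∀ (k : ℕ) {B : Type} [CommRing B] [FpA p B] (b : B),
            (∑ j ∈ range k, ((-1 : ℤ) ^ j) • b) = if Even k then 0 else b := by
          intro k B _ _ b
          induction k with
          | zero => simp
          | succ k ih =>
            rw [sum_range_succ, ih]
            by_cases hk : Even k
            · rw [if_pos hk, if_neg (by rw [Nat.even_add_one, not_not]; exact hk), hk.neg_one_pow]
              simp
            · rw [if_neg hk, if_pos (by rw [Nat.even_add_one]; exact hk),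
                (Nat.not_even_iff_odd.1 hk).neg_one_pow]
              simp
        have hd' : ∀ {B : Type} [CommRing B] [FpA p B],
            (if Even (n + 1 + 2) then (0 : B) else F.f () (fun _ => (1 : (c.A m).obj B))) = 0 := by
          intro B _ _
          rw [← hsum (n + 1 + 2)]
          have := congrArg (fun F : Coch (pt (c.A m)) (triv (c.A m)) (n + 2) =>
            F.f () (fun _ => (1 : (c.A m).obj B))) hd
          dsimp only at this
          rw [Coch.d_f, dS_apply, Coch.zero_f] at this
          rw [← this]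
          refine sum_congr rfl fun j _ => ?_
          rw [hc (del j _)]
        by_cases he : Even (n + 1)
        · refine ⟨c.const n F, ?_, ?_⟩
          · intro B _ _ u x g
            change F.f () _ = ((u ^ (0 : ℤ) : Bˣ) : B) • F.f () _
            rw [zpow_zero, Units.val_one, one_smul]
          · refine Coch.ext' fun {B} _ _ x g => ?_
            rw [Coch.d_f, dS_apply]
            change ∑ j ∈ range (n + 2), ((-1 : ℤ) ^ j) • F.f () (fun _ => (1 : (c.A m).obj B)) = _
            rw [hsum, if_neg (by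
              rw [show n + 2 = n + 1 + 1 from rfl, Nat.even_add_one, not_not]; exact he)]
            exact (hc g).symm
        · refine ⟨0, Coch.isWt_zero _, ?_⟩
          rw [Coch.d_zero]
          refine Coch.ext' fun {B} _ _ x g => ?_
          have h1 := hd' (B := B)
          rw [if_neg (by
            rw [show n + 1 + 2 = n + 1 + 1 + 1 from rfl, Nat.even_add_one, Nat.even_add_one,
              not_not]
            exact he)] at h1
          exact ((hc g).trans h1).symm
    · refine van_of_eq_zero fun F hF => Coch.ext' fun {B} _ _ x g => ?_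
      have := c.triv_small hF hw' g
      rwa [if_neg hpos.ne'] at this

end Crd

end Vale.Agent.P257.H919

end
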