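import Vale.Agent.P257.H919.DG
import Vale.Agent.P257.H545.VanP
import Vale.Agent.P257.H545.CmpP
import Vale.Agent.P257.H327.Enum6
import Vale.Agent.P257.H93.OntoD

/-! # P257 / H919 / Steps : divisions by `b_{1,0}` and `b_{1,1}` in the groups used for `V(4)` -/

noncomputable section

namespace Vale.Agent.P257.H919

open Vale.Agent.P251.F Vale.Agent.P251.F.F3 Vale.Agent.P217
open Vale.Agent.P257.H93 Vale.Agent.P257.H327 Vale.Agent.P257.H545 Finset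

variable {p : ℕ} [hp : Fact p.Prime]

theorem mulH_sub_one : ((p - 1 : ℕ) : ℤ) = (p : ℤ) - 1 := by
  rw [Nat.cast_sub hp.1.one_lt.le, Nat.cast_one]

/-- division by `b_{1,k}` -/
def DivP (p : ℕ) [Fact p.Prime] (k : ℕ) : Prop := ∀ (n : ℕ) (w : ℤ),
  Van (pt (addG p)) (DG p k).rep (n + 2) w →
  Van (pt (addG p)) (DG p k).rep (n + 1) (w - (((p - 1) * p ^ k : ℕ) : ℤ)) →
  ∀ c : CobP p (n + 2), IsWtP p (n + 2) w c → dP (n + 2) c = 0 →
    ∃ (c₀ : CobP p n) (e : CobP p (n + 1)), IsWtP p n (w - (((p - 1) * p ^ (k + 1) : ℕ) : ℤ)) c₀ ∧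
      IsWtP p (n + 1) w e ∧ dP n c₀ = 0 ∧
      c = cupP (a := n) (b := 2) c₀ (H134.bP p 1 k) + dP (n + 1) e

theorem divP (hp2 : p ≠ 2) (k : ℕ) : DivP p k :=
  fun _ _ h1 h2 _ hc hd => onto_bP hp2 h1 h2 hc hd

/-- if `b_{1,k}` divides all monomials then multiplication by `b_{1,k}` is onto -/
theorem DivP.onto {k : ℕ} (hD : DivP p k) {n : ℕ} {w v : ℤ}
    (hv : v = (((p - 1) * p ^ (k + 1) : ℕ) : ℤ))
    (h : ∀ x : Mon, x.s = n + 2 → (((p - 1) * x.W p : ℕ) : ℤ) = w + v → (0, k) ∈ x.b.support)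
    (c : CobP p (n + 2)) (hc : IsWtP p (n + 2) (w + v) c) (hd : dP (n + 2) c = 0) :
    ∃ (c₀ : CobP p n) (e : CobP p (n + 1)), IsWtP p n w c₀ ∧ IsWtP p (n + 1) (w + v) e ∧
      dP n c₀ = 0 ∧ c = cupP (a := n) (b := 2) c₀ (H134.bP p 1 k) + dP (n + 1) e := by
  have h1 : Van (pt (addG p)) (DG p k).rep (n + 2) (w + v) :=
    van_DG fun x _ hb hs hW => hb (h x hs hW)
  have h2 : Van (pt (addG p)) (DG p k).rep (n + 1) (w + v - (((p - 1) * p ^ k : ℕ) : ℤ)) := by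
    refine van_DG fun x hh hb hs hW => hb (h (mulH x (0, k)) (by rw [s_mulH hh, hs]) ?_)
    rw [W_mulH hh, mul_add, ← ew_eq hp.1.one_lt.le, Crd.ew, zero_add, pow_one, Nat.cast_add, hW]
    ring
  obtain ⟨c₀, e, h3, h4, h5, h6⟩ := hD n (w + v) h1 h2 c hc hd
  refine ⟨c₀, e, ?_, h4, h5, h6⟩
  rwa [← hv, add_sub_cancel_right] at h3

theorem dP_bP_one (k : ℕ) : dP 2 (H134.bP p 1 k) = 0 := by
  apply ext_evG
  intro B _ _ g
  rw [H134.evG_d_bP g 1 k one_pos, map_zero]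
  rw [show Ioo 0 1 = (∅ : Finset ℕ) from rfl, sum_empty]

theorem isWtP_natCast_mul {n : ℕ} {w : ℤ} {x : CobP p n} (hx : IsWtP p n w x) (k : ℕ) :
    IsWtP p n w ((k : CobP p n) * x) := by
  have h := hx.zsmul (k : ℤ)
  rwa [natCast_zsmul, nsmul_eq_mul] at h

theorem isWtP_cp {n : ℕ} {w : ℤ} {x y : CobP p n} (hx : IsWtP p n w x) (hy : IsWtP p n w y) :
    IsWtP p n ((p : ℤ) * w) (H134.cp p x y) := by
  unfold H134.cp
  refine MvPolynomial.IsWeightedHomogeneous.sum _ _ _ fun k hk => ?_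
  have h1 := isWtP_natCast_mul ((hx.pow k).mul (hy.pow (p - k))) (p.choose k / p)
  rw [mem_Ioo] at hk
  have e : k • w + (p - k) • w = (p : ℤ) * w := by
    rw [nsmul_eq_mul, nsmul_eq_mul, Nat.cast_sub hk.2.le]
    ring
  rwa [e] at h1

theorem bP_one (k : ℕ) : H134.bP p 1 k =
    H134.cp p (MvPolynomial.X (0, 0) ^ p ^ k) (MvPolynomial.X (1, 0) ^ p ^ k) := by
  rw [H134.bP, H134.bb, show antidiagonal 1 = {(0, 1), (1, 0)} from rfl,
    H134.gam_pair p (by decide), H134.cp_comm]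
  simp only [H134.tt, one_pow, one_mul, mul_one, zero_add]

theorem isWtP_bP_one (k : ℕ) :
    IsWtP p 2 (((p - 1) * p ^ (k + 1) : ℕ) : ℤ) (H134.bP p 1 k) := by
  rw [bP_one]
  have h1 := isWtP_cp ((isWtP_X (p := p) ((0 : Fin 2), 0)).pow (p ^ k))
    ((isWtP_X (p := p) ((1 : Fin 2), 0)).pow (p ^ k))
  have e : (p : ℤ) * ((p ^ k) • wX p 2 (0, 0)) = (((p - 1) * p ^ (k + 1) : ℕ) : ℤ) := by
    rw [wX, Nat.cast_mul, mulH_sub_one, nsmul_eq_mul]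
    push_cast
    ring
  rwa [← e]

/-- the resulting vanishing statement -/
theorem DivP.van {k : ℕ} (hD : DivP p k) {n : ℕ} {w v : ℤ}
    (hv : v = (((p - 1) * p ^ (k + 1) : ℕ) : ℤ))
    (h : ∀ x : Mon, x.s = n + 3 → (((p - 1) * x.W p : ℕ) : ℤ) = w + v → (0, k) ∈ x.b.support)
    (hV : VanP p (n + 1) w) : VanP p (n + 3) (w + v) := by
  intro c hc hd
  have hb : IsWtP p 2 v (H134.bP p 1 k) := by
    rw [hv]
    exact isWtP_bP_one k
  obtain ⟨c₀, e, h3, h4, h5, h6⟩ := hD.onto hv h c hc hd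
  obtain ⟨y, hy, rfl⟩ := hV c₀ h3 h5
  refine ⟨cupP (a := n) (b := 2) y (H134.bP p 1 k) + e, (hy.cupP hb).add h4, ?_⟩
  rw [map_add, h6]
  congr 1
  exact dP_cupP_two (a := n) y (dP_bP_one k)

theorem weight_eq {w v : ℤ} {M : ℕ} (h1 : w + v = ((p : ℤ) - 1) * M) {x : Mon}
    (hW : (((p - 1) * x.W p : ℕ) : ℤ) = w + v) : x.W p = M := by
  rw [h1, Nat.cast_mul, mulH_sub_one] at hW
  have h2 : ((p : ℤ) - 1) ≠ 0 := by
    have := hp.1.one_lt
    omega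
  exact_mod_cast mul_left_cancel₀ h2 hW

theorem mem_support_mk4_zero {h : Finset (ℕ × ℕ)} {x0 x1 x2 y0 y1 z : ℕ} (h0 : x0 ≠ 0) :
    (0, 0) ∈ (Mon.mk4 h x0 x1 x2 y0 y1 z).b.support := by
  rw [Finsupp.mem_support_iff, Mon.mk4]
  simp [Finsupp.add_apply, h0]

theorem mem_support_mk4_one {h : Finset (ℕ × ℕ)} {x0 x1 x2 y0 y1 z : ℕ} (h1 : x1 ≠ 0) :
    (0, 1) ∈ (Mon.mk4 h x0 x1 x2 y0 y1 z).b.support := by
  rw [Finsupp.mem_support_iff, Mon.mk4]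
  simp [Finsupp.add_apply, h1]

theorem v_zero : (p : ℤ) * (p - 1) = (((p - 1) * p ^ (0 + 1) : ℕ) : ℤ) := by
  rw [Nat.cast_mul, mulH_sub_one]
  push_cast
  ring

theorem v_one : (p : ℤ) ^ 2 * (p - 1) = (((p - 1) * p ^ (1 + 1) : ℕ) : ℤ) := by
  rw [Nat.cast_mul, mulH_sub_one]
  push_cast
  ring

/-- multiplication by `b_{1,0}` onto the group of the `p`-th target -/
theorem kappa_onto (h11 : 11 ≤ p) (j : ℕ) (hj : j + p + 3 ≤ p ^ 2)
    (c : CobP p (5 + 2 * j + 2))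
    (hc : IsWtP p (5 + 2 * j + 2) (((p : ℤ) - 1) * (2 * p ^ 2 + 4 * p + 1 + p * j) +
      (p : ℤ) * (p - 1)) c) (hd : dP (5 + 2 * j + 2) c = 0) :
    ∃ (c₀ : CobP p (5 + 2 * j)) (e : CobP p (5 + 2 * j + 1)),
      IsWtP p (5 + 2 * j) (((p : ℤ) - 1) * (2 * p ^ 2 + 4 * p + 1 + p * j)) c₀ ∧
      IsWtP p (5 + 2 * j + 1) (((p : ℤ) - 1) * (2 * p ^ 2 + 4 * p + 1 + p * j) +
        (p : ℤ) * (p - 1)) e ∧
      dP (5 + 2 * j) c₀ = 0 ∧
      c = cupP (a := 5 + 2 * j) (b := 2) c₀ (H134.bP p 1 0) + dP (5 + 2 * j + 1) e := by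
  refine (divP (by omega) 0).onto v_zero (fun x hs hW => ?_) c hc hd
  have hM : x.W p = 2 * p ^ 2 + 4 * p + 1 + p * (j + 1) := weight_eq (by push_cast; ring) hW
  rcases enum_kappa p (j + 1) h11 (by omega) x (by omega) hM with h | h <;> rw [h]
  · exact mem_support_mk4_zero (by omega)
  · exact mem_support_mk4_zero (by omega)

/-- multiplications by `b_{1,1}` -/
theorem alpha_step1 (h11 : 11 ≤ p) (j : ℕ) (hj : j + 3 ≤ p)
    (hV : VanP p (5 + 2 * j) (((p : ℤ) - 1) * (2 * p ^ 2 + 3 * p + 3 + p ^ 2 * j))) :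
    VanP p (5 + 2 * (j + 1)) (((p : ℤ) - 1) * (2 * p ^ 2 + 3 * p + 3 +
      p ^ 2 * ((j + 1 : ℕ) : ℤ))) := by
  have e : ((p : ℤ) - 1) * (2 * p ^ 2 + 3 * p + 3 + p ^ 2 * ((j + 1 : ℕ) : ℤ)) =
      ((p : ℤ) - 1) * (2 * p ^ 2 + 3 * p + 3 + p ^ 2 * j) + (p : ℤ) ^ 2 * (p - 1) := by
    push_cast
    ring
  have hpp : 11 * p ≤ p ^ 2 := by rw [sq]; exact Nat.mul_le_mul_right p h11
  rw [e, show 5 + 2 * (j + 1) = (4 + 2 * j) + 3 by ring]
  rw [show 5 + 2 * j = (4 + 2 * j) + 1 by ring] at hV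
  refine (divP (by omega) 1).van v_one (fun x hs hW => ?_) hV
  have hM : x.W p = 2 * p ^ 2 + 3 * p + 3 + p * 0 + p ^ 2 * (j + 1) :=
    weight_eq (by push_cast; ring) hW
  rcases enum_alpha p 0 (j + 1) h11 (by omega) (by omega) x (by omega) hM with h | h <;> rw [h]
  · exact mem_support_mk4_one (by omega)
  · exact mem_support_mk4_one (by omega)

/-- multiplications by `b_{1,0}` -/
theorem alpha_step0 (h11 : 11 ≤ p) (j : ℕ) (hj : j + 3 ≤ p)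
    (hV : VanP p (2 * p + 1 + 2 * j) (((p : ℤ) - 1) * (p ^ 3 + 3 * p + 3 + p * j))) :
    VanP p (2 * p + 1 + 2 * (j + 1)) (((p : ℤ) - 1) * (p ^ 3 + 3 * p + 3 +
      p * ((j + 1 : ℕ) : ℤ))) := by
  have e : ((p : ℤ) - 1) * (p ^ 3 + 3 * p + 3 + p * ((j + 1 : ℕ) : ℤ)) =
      ((p : ℤ) - 1) * (p ^ 3 + 3 * p + 3 + p * j) + (p : ℤ) * (p - 1) := by
    push_cast
    ring
  have hpp : 11 * p ≤ p ^ 2 := by rw [sq]; exact Nat.mul_le_mul_right p h11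
  rw [e, show 2 * p + 1 + 2 * (j + 1) = (2 * p + 2 * j) + 3 by ring]
  rw [show 2 * p + 1 + 2 * j = (2 * p + 2 * j) + 1 by ring] at hV
  refine (divP (by omega) 0).van v_zero (fun x hs hW => ?_) hV
  have hM : x.W p = p ^ 3 + 3 * p + 3 + p * (j + 1) := weight_eq (by push_cast; ring) hW
  have hM2 : x.W p = 2 * p ^ 2 + 3 * p + 3 + p * (j + 1) + p ^ 2 * (p - 2) := by
    rw [hM]
    zify [show 2 ≤ p by omega]
    ring
  rcases enum_alpha p (j + 1) (p - 2) h11 (by omega) (by omega) x (by omega) hM2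
    with h | h <;> rw [h]
  · exact mem_support_mk4_zero (by omega)
  · exact mem_support_mk4_zero (by omega)

/-- multiplications by `b_{1,0}` -/
theorem gamma_step (h11 : 11 ≤ p) (j : ℕ) (hj : j + 2 * p + 3 ≤ p ^ 2)
    (hV : VanP p (7 + 2 * j) (((p : ℤ) - 1) * (3 * p ^ 2 + 4 * p + p * j))) :
    VanP p (7 + 2 * (j + 1)) (((p : ℤ) - 1) * (3 * p ^ 2 + 4 * p +
      p * ((j + 1 : ℕ) : ℤ))) := by
  have e : ((p : ℤ) - 1) * (3 * p ^ 2 + 4 * p + p * ((j + 1 : ℕ) : ℤ)) =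
      ((p : ℤ) - 1) * (3 * p ^ 2 + 4 * p + p * j) + (p : ℤ) * (p - 1) := by
    push_cast
    ring
  rw [e, show 7 + 2 * (j + 1) = (6 + 2 * j) + 3 by ring]
  rw [show 7 + 2 * j = (6 + 2 * j) + 1 by ring] at hV
  refine (divP (by omega) 0).van v_zero (fun x hs hW => ?_) hV
  have hM : x.W p = 3 * p ^ 2 + 4 * p + p * (j + 1) := weight_eq (by push_cast; ring) hW
  rcases enum_gamma p (j + 1) h11 (by omega) x (by omega) hM with h | h | h <;> rw [h]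
  · exact mem_support_mk4_zero (by omega)
  · exact mem_support_mk4_zero (by omega)
  · exact mem_support_mk4_zero (by omega)

end Vale.Agent.P257.H919

end
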