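import Vale.Agent.P257.H919.DK

/-! # P257 / H919 / VanD : vanishing with coefficients `D_k` -/

noncomputable section

namespace Vale.Agent.P257.H919

open Vale.Agent.P251.F.F3 Vale.Agent.P257.H93 Vale.Agent.P257.H327 Finset Polynomial

variable {p : ℕ} [hp : Fact p.Prime] {ι : Type} [Fintype ι] [DecidableEq ι] {𝒢 : Grp p}
  (c : Crd 𝒢) {m : ℕ} (𝒩 : MatRep (c.A m) ι)

namespace Crd

variable {B : Type} [CommRing B] [FpA p B]

theorem key_T {j n : ℕ} {w : ℤ} {F : Coch (pt (c.A m)) (c.T 𝒩 j) n} (hF : F.IsWt w)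
    (g : ℕ → (c.A m).obj B) (a : ι) (k : ℕ) :
    (((uT B) ^ 𝒩.ω a : (LaurentPolynomial B)ˣ) : LaurentPolynomial B) *
      (toLaurent ((F.f () (c.gT g) a).coeff k) * toLaurent ((X : B[X]) ^ (ew p m j * k))) =
      (((uT B) ^ w : (LaurentPolynomial B)ˣ) : LaurentPolynomial B) *
        LaurentPolynomial.C ((F.f () g a).coeff k) := by
  have h1 := F.nat (toLaurent : B[X] →+* LaurentPolynomial B) () (c.gT g)
  have h2 := F.nat (LaurentPolynomial.C : B →+* LaurentPolynomial B) () g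
  have h3 := hF (uT B) ()
    (fun k => (c.A m).map (LaurentPolynomial.C : B →+* LaurentPolynomial B) (g k))
  have h4 : (fun k => (c.A m).map (toLaurent : B[X] →+* LaurentPolynomial B) (c.gT g k)) =
      fun k => (c.A m).sc (uT B)
        ((c.A m).map (LaurentPolynomial.C : B →+* LaurentPolynomial B) (g k)) :=
    funext fun k => c.map_gT g k
  rw [h4] at h1
  have h1' := congrFun h1 a
  have h2' := congrFun h2 a
  have h3' := congrFun h3 a
  change F.f () (fun k => (c.A m).sc (uT B)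
      ((c.A m).map (LaurentPolynomial.C : B →+* LaurentPolynomial B) (g k))) a =
    Polynomial.map (toLaurent : B[X] →+* LaurentPolynomial B) (F.f () (c.gT g) a) at h1'
  change F.f () (fun k => (c.A m).map (LaurentPolynomial.C : B →+* LaurentPolynomial B) (g k)) a =
    Polynomial.map (LaurentPolynomial.C : B →+* LaurentPolynomial B) (F.f () g a) at h2'
  change (((uT B) ^ 𝒩.ω a : (LaurentPolynomial B)ˣ) : LaurentPolynomial B) •
    scX (((uT B : (LaurentPolynomial B)ˣ) : LaurentPolynomial B) ^ ew p m j)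
      (F.f () (fun k => (c.A m).sc (uT B)
      ((c.A m).map (LaurentPolynomial.C : B →+* LaurentPolynomial B) (g k))) a) =
    (((uT B) ^ w : (LaurentPolynomial B)ˣ) : LaurentPolynomial B) •
      F.f () (fun k => (c.A m).map (LaurentPolynomial.C : B →+* LaurentPolynomial B) (g k)) a
    at h3'
  rw [h1', h2'] at h3'
  have h5 := congrArg (fun f => coeff f k) h3'
  simp only [coeff_scX, coeff_map, coeff_smul, smul_eq_mul] at h5
  rw [← h5, val_uT, ← map_pow, ← map_pow, ← pow_mul]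

/-- coefficients of negative weight vanish -/
theorem coeff_T_eq_zero {j n : ℕ} {w : ℤ} {F : Coch (pt (c.A m)) (c.T 𝒩 j) n} (hF : F.IsWt w)
    (g : ℕ → (c.A m).obj B) {a : ι} {k : ℕ} (hk : w - 𝒩.ω a < ew p m j * k) :
    (F.f () g a).coeff k = 0 := by
  have h := c.key_T 𝒩 hF g a k
  obtain ⟨r, hr⟩ : ∃ r : ℕ, 𝒩.ω a + ((ew p m j * k : ℕ) : ℤ) = w + (r + 1) :=
    ⟨(𝒩.ω a + ((ew p m j * k : ℕ) : ℤ) - w - 1).toNat, by push_cast at hk ⊢; omega⟩
  have h2 : (((uT B) ^ 𝒩.ω a : (LaurentPolynomial B)ˣ) : LaurentPolynomial B) *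
      toLaurent ((X : B[X]) ^ (ew p m j * k)) =
      (((uT B) ^ w : (LaurentPolynomial B)ˣ) : LaurentPolynomial B) *
        toLaurent ((X : B[X]) ^ (r + 1)) := by
    rw [← val_uT_zpow, ← val_uT_zpow, ← Units.val_mul, ← Units.val_mul, ← zpow_add, ← zpow_add, hr]
    push_cast
    rfl
  rw [mul_left_comm, h2, mul_left_comm] at h
  have h3 := (Units.mul_right_inj _).1 h
  rw [← map_mul, ← toLaurent_C] at h3
  have h4 := toLaurent_injective h3
  have h5 := congrArg (fun f => coeff f 0) h4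
  simp only [coeff_C_zero] at h5
  rw [← h5, coeff_zero_eq_eval_zero, eval_mul, eval_pow, eval_X,
    zero_pow (Nat.succ_ne_zero r), mul_zero]

/-- inclusion of the constants `𝒩 → 𝒩 ⊗ M_j` -/
def Tc (j : ℕ) : RHom 𝒩.rep (c.T 𝒩 j) where
  h {B} _ _ :=
    { toFun := fun v a => C (v a)
      map_add' := fun v w => funext fun a => C_add
      map_smul' := fun b v => funext fun a => by
        change C (b * v a) = b • C (v a)
        rw [C_mul, smul_eq_C_mul] }
  nat φ v := funext fun a => (map_C φ).symm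
  scal {B} _ _ u v := by
    funext a
    change C (((u ^ 𝒩.ω a : Bˣ) : B) * v a) = ((u ^ 𝒩.ω a : Bˣ) : B) • (C (v a)).comp _
    rw [C_comp, C_mul, smul_eq_C_mul]
  eqv {B} _ _ g v := by
    funext a
    change C ((𝒩.ρ g).mulVec v a) = ∑ b, 𝒩.ρ g a b • taylor (-(c.x g) ^ p ^ j) (C (v b))
    simp only [taylor_C, smul_eq_C_mul, ← C_mul, Matrix.mulVec, dotProduct, map_sum]

theorem push_Tc_injective {j n : ℕ} :
    Function.Injective (Coch.push (c.Tc 𝒩 j) : Coch (pt (c.A m)) _ n → _) := fun F E h =>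
  Coch.ext' fun x g => funext fun a => C_injective
    (congrFun (congrArg (fun F : Coch (pt (c.A m)) (c.T 𝒩 j) n => F.f x g) h) a)

/-- cochains of weight less than the weight of `y` are constant -/
theorem exists_push_Tc {j n : ℕ} {w : ℤ} {F : Coch (pt (c.A m)) (c.T 𝒩 j) n} (hF : F.IsWt w)
    (hω : ∀ a, 0 ≤ 𝒩.ω a) (hw : w < ew p m j) :
    ∃ E : Coch (pt (c.A m)) 𝒩.rep n, E.IsWt w ∧ E.push (c.Tc 𝒩 j) = F := by
  have h : ∀ {B : Type} [CommRing B] [FpA p B] (g : ℕ → (c.A m).obj B) (a : ι),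
      F.f () g a = C ((F.f () g a).coeff 0) := by
    intro B _ _ g a
    ext k
    rcases k with _ | k
    · rw [coeff_C_zero]
    · rw [coeff_C_succ]
      apply c.coeff_T_eq_zero 𝒩 hF
      push_cast
      nlinarith [Int.natCast_nonneg (ew p m j * k), Int.natCast_nonneg k,
        Int.natCast_nonneg (ew p m j), hω a]
  have key : ∃ E : Coch (pt (c.A m)) 𝒩.rep n, E.push (c.Tc 𝒩 j) = F := by
    refine ⟨{ f := fun _ g a => (F.f () g a).coeff 0, nat := ?_, loc := ?_, eqv := ?_ }, ?_⟩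
    · intro B C _ _ _ _ φ x g
      funext a
      have h1 := congrFun (F.nat φ () g) a
      change (F.f () _ a).coeff 0 = φ ((F.f () g a).coeff 0)
      rw [h1]
      exact coeff_map φ 0
    · intro B _ _ x g g' hg
      funext a
      rw [F.loc () g g' hg]
    · intro B _ _ k x g
      funext a
      have h1 := congrFun (F.eqv k () g) a
      change F.f () _ a = ∑ b, 𝒩.ρ k a b • taylor _ (F.f () g b) at h1
      change (F.f () _ a).coeff 0 = (𝒩.ρ k).mulVec (fun b => (F.f () g b).coeff 0) a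
      rw [h1, finsetSum_coeff]
      refine sum_congr rfl fun b _ => ?_
      rw [coeff_smul, smul_eq_mul]
      congr 1
      conv_lhs => rw [h g b, taylor_C, coeff_C_zero]
    · exact Coch.ext' fun {B} _ _ x g => funext fun a => (h g a).symm
  obtain ⟨E, rfl⟩ := key
  refine ⟨E, fun {B} _ _ u x g => funext fun a => ?_, rfl⟩
  apply C_injective
  have h1 := hF u () g
  rw [Coch.push_f, Coch.push_f, ← (c.Tc 𝒩 j).scal, ← map_smul] at h1
  exact congrFun h1 a

theorem van_rep_of_T {j n : ℕ} {w : ℤ} (hω : ∀ a, 0 ≤ 𝒩.ω a) (hw : w < ew p m j)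
    (h : Van (pt (c.A m)) (c.T 𝒩 j) n w) : Van (pt (c.A m)) 𝒩.rep n w := by
  rcases n with _ | n
  · rw [van_zero] at *
    intro F hF hd
    apply c.push_Tc_injective 𝒩 (j := j)
    rw [h (F.push (c.Tc 𝒩 j)) (hF.push _) (by rw [Coch.push_d, hd, Coch.push_zero]),
      Coch.push_zero]
  · rw [van_succ] at *
    intro F hF hd
    obtain ⟨E, hE, hdE⟩ := h (F.push (c.Tc 𝒩 j)) (hF.push _)
      (by rw [Coch.push_d, hd, Coch.push_zero])
    obtain ⟨E', hE', rfl⟩ := c.exists_push_Tc 𝒩 hE hω hw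
    exact ⟨E', hE', c.push_Tc_injective 𝒩 (by rw [← Coch.push_d, hdE])⟩

end Crd

end Vale.Agent.P257.H919

end
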