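import Vale.Agent.P257.H919.VanD

/-! # P257 / H919 / VanDK : no monomial without `h_{m+1,k}, b_{m+1,k}` implies no cohomology with
coefficients in `D_k` -/

noncomputable section

namespace Vale.Agent.P257.H919

open Vale.Agent.P251.F.F3 Vale.Agent.P257.H93 Vale.Agent.P257.H327 Finset Polynomial

variable {p : ℕ}

/-- there is a monomial in the generators with index `m' > m`, or `m' = m` and `j' < j`,
`j' ≠ k`, of given tridegree -/
def Q' (p m k j s : ℕ) (w : ℤ) : Prop :=
  ∃ x : Mon, (∀ a ∈ x.h, m < a.1 ∨ (a.1 = m ∧ a.2 < j ∧ a.2 ≠ k)) ∧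
    (∀ a ∈ x.b.support, m < a.1 ∨ (a.1 = m ∧ a.2 < j ∧ a.2 ≠ k)) ∧ x.s = s ∧
    (((p - 1) * x.W p : ℕ) : ℤ) = w

namespace Crd

variable [hp : Fact p.Prime] {𝒢 : Grp p} (c : Crd 𝒢) {m : ℕ}

theorem van_T_of_not_Q' (N : ℕ) (k i : ℕ) :
    ∀ s w, w < (N : ℤ) → ¬ Q' p m k (k + 1 + i) s w →
      Van (pt (c.A m)) (c.T (c.DK m k) (k + 1 + i)) s w := by
  have h1 := hp.1.one_lt.le
  induction i with
  | zero =>
    intro s w hw hQ
    refine c.van_T_base (c.van_M_of_not_Q (N := N) (c.van_of_not_P N N (m + 1) (by omega)) k s w hw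
      fun ⟨x, hx, hb, hs, hW⟩ => hQ ⟨x, ?_, ?_, hs, hW⟩)
    · exact fun a ha => (hx a ha).imp id fun h => ⟨h.1, by omega, by omega⟩
    · exact fun a ha => (hb a ha).imp id fun h => ⟨h.1, by omega, by omega⟩
  | succ i ih =>
    intro s
    induction s using Nat.strong_induction_on with
    | _ s ihs =>
      intro w hw hQ
      have e0 : ∀ j, (0 : ℤ) ≤ ew p m j := fun j => Int.natCast_nonneg _
      rw [← add_assoc] at hQ ⊢
      refine c.van_T_succ _ (ih s w hw fun ⟨x, hx, hb, hs, hW⟩ => hQ ⟨x, ?_, ?_, hs, hW⟩) ?_ ?_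
      · exact fun a ha => (hx a ha).imp id fun h => ⟨h.1, by omega, h.2.2⟩
      · exact fun a ha => (hb a ha).imp id fun h => ⟨h.1, by omega, h.2.2⟩
      · rintro l rfl
        refine ih l _ (by linarith [e0 (k + 1 + i)]) fun ⟨x, hx, hb, hs, hW⟩ => hQ ?_
        have hn : (m, k + 1 + i) ∉ x.h := fun h => by
          rcases hx _ h with h | h
          · exact lt_irrefl _ h
          · exact lt_irrefl _ h.2.1
        refine ⟨mulH x (m, k + 1 + i), ?_, ?_, by rw [s_mulH hn, hs], ?_⟩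
        · intro a ha
          rcases mem_insert.1 ha with rfl | ha
          · exact Or.inr ⟨rfl, Nat.lt_succ_self _, by dsimp only; omega⟩
          · exact (hx a ha).imp id fun h => ⟨h.1, by omega, h.2.2⟩
        · exact fun a ha => (hb a ha).imp id fun h => ⟨h.1, by omega, h.2.2⟩
        · rw [W_mulH hn, mul_add, ← ew_eq h1, Nat.cast_add, hW]
          ring
      · rintro l rfl
        refine ihs l (by omega) _ (by linarith [e0 (k + 1 + i + 1)])
          fun ⟨x, hx, hb, hs, hW⟩ => hQ ?_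
        refine ⟨mulB x (m, k + 1 + i), hx, ?_, by rw [s_mulB, hs], ?_⟩
        · intro a ha
          rcases mem_union.1 (Finsupp.support_add ha) with ha | ha
          · exact hb a ha
          · rw [Finsupp.support_single _ one_ne_zero, mem_singleton] at ha
            rw [ha]
            exact Or.inr ⟨rfl, Nat.lt_succ_self _, by dsimp only; omega⟩
        · rw [W_mulB, mul_add, ← mul_assoc, mul_comm (p - 1) p, mul_assoc, ← ew_eq h1,
            mul_comm p, ← ew_succ, Nat.cast_add, hW]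
          ring

/-- vanishing with coefficients in `D_k` -/
theorem van_DK {k s : ℕ} {w : ℤ} (h : ∀ x : Mon, (∀ a ∈ x.h, m ≤ a.1 ∧ a ≠ (m, k)) →
    (∀ a ∈ x.b.support, m ≤ a.1 ∧ a ≠ (m, k)) → x.s = s →
    (((p - 1) * x.W p : ℕ) : ℤ) ≠ w) : Van (pt (c.A m)) (c.DK m k).rep s w := by
  have hlt : ∀ n : ℕ, n < p ^ n := fun n => Nat.lt_pow_self hp.1.one_lt
  have key : ∀ N : ℕ, w < N → Van (pt (c.A m)) (c.DK m k).rep s w := by
    intro N hw
    refine c.van_rep_of_T (c.DK m k) (j := k + 1 + N) (fun a => ?_) ?_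
      (c.van_T_of_not_Q' N k N s w hw ?_)
    · change (0 : ℤ) ≤ (ew p m k : ℤ) * ((a : ℕ) : ℤ)
      positivity
    · refine lt_trans hw ?_
      have h3 := hlt (k + 1 + N)
      have h4 : 1 ≤ p ^ (m + 1) - 1 := by
        have : 1 < p ^ (m + 1) := Nat.one_lt_pow (Nat.succ_ne_zero m) hp.1.one_lt
        omega
      have h5 : N < ew p m (k + 1 + N) := by
        unfold ew
        nlinarith
      exact_mod_cast h5
    · rintro ⟨x, hx, hb, hs, hW⟩
      refine h x (fun a ha => ?_) (fun a ha => ?_) hs hW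
      · rcases hx a ha with h | ⟨h, -, h'⟩
        · exact ⟨h.le, fun e => by rw [e] at h; exact lt_irrefl _ h⟩
        · exact ⟨h.ge, fun e => h' (by rw [e])⟩
      · rcases hb a ha with h | ⟨h, -, h'⟩
        · exact ⟨h.le, fun e => by rw [e] at h; exact lt_irrefl _ h⟩
        · exact ⟨h.ge, fun e => h' (by rw [e])⟩
  exact key (w.toNat + 1) (by push_cast; have := Int.self_le_toNat w; omega)

end Crd

end Vale.Agent.P257.H919

end
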