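import Vale.Agent.P257.H919.ModM

/-! # P257 / H919 / Wts : weights, and the comparison of `M_0`, `M_∞` with `A_{m+1}`, `A_m` -/

noncomputable section

namespace Vale.Agent.P257.H919

open Vale.Agent.P251.F.F3 Vale.Agent.P257.H93 Finset Polynomial

variable {p : ℕ} [hp : Fact p.Prime] {𝒢 : Grp p} (c : Crd 𝒢) {m : ℕ}

namespace Crd

/-! ### `M_0` is coinduced -/

/-- functions with values in polynomials are functions on `G_a` -/
def toY {n : ℕ} (F : Coch (pt (c.A m)) (c.M m 0) n) : Coch (c.Ya m) (triv (c.A m)) n where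
  f {B} _ _ y g := eval y (F.f () g)
  nat {B C} _ _ _ _ φ y g := by
    have h := F.nat φ () g
    change eval (φ y) (F.f ((pt (c.A m)).map φ ()) fun k => (c.A m).map φ (g k)) =
      φ (eval y (F.f () g))
    rw [h]
    exact eval_map_apply φ y
  loc y g g' h := by rw [F.loc () g g' h]
  eqv {B} _ _ h y g := by
    have h1 := F.eqv h () g
    change eval (y + c.x h) (F.f (h • ()) fun k => g k * h⁻¹) = eval y (F.f () g)
    rw [h1]
    change eval (y + c.x h) (taylor (-(c.x h) ^ p ^ 0) (F.f () g)) = _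
    rw [taylor_eval]
    congr 1
    rw [pow_zero, pow_one]
    ring

/-- functions on `G_a` are functions with values in polynomials -/
def ofY {n : ℕ} (E : Coch (c.Ya m) (triv (c.A m)) n) : Coch (pt (c.A m)) (c.M m 0) n where
  f {B} _ _ _ g := E.f (X : B[X]) fun k => (c.A m).map (C : B →+* B[X]) (g k)
  nat {B B'} _ _ _ _ φ _ g := by
    have h := E.nat (mapRingHom φ) (X : B[X]) fun k => (c.A m).map (C : B →+* B[X]) (g k)
    change E.f (X : B'[X]) (fun k => (c.A m).map (C : B' →+* B'[X]) ((c.A m).map φ (g k))) =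
      mapRingHom φ (E.f (X : B[X]) fun k => (c.A m).map (C : B →+* B[X]) (g k))
    refine Eq.trans ?_ h
    have h2 : (c.Ya m).map (mapRingHom φ) (X : B[X]) = X := map_X φ
    rw [h2]
    change (fun (a : ℕ → (c.A m).obj B'[X]) => E.f (X : B'[X]) a) _ =
      (fun (a : ℕ → (c.A m).obj B'[X]) => E.f (X : B'[X]) a) _
    congr 1
    funext k
    apply c.A_ext
    intro i _
    change c.t (𝒢.map _ (𝒢.map _ _)) _ = c.t (𝒢.map _ (𝒢.map _ _)) _
    rw [c.t_map, c.t_map, c.t_map, c.t_map]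
    exact (map_C φ).symm
  loc _ g g' h := E.loc _ _ _ fun k hk => by rw [h k hk]
  eqv {B} _ _ h _ g := by
    change E.f (X : B[X]) (fun k => (c.A m).map (C : B →+* B[X]) (g k * h⁻¹)) =
      taylor (-(c.x h) ^ p ^ 0) (E.f (X : B[X]) fun k => (c.A m).map (C : B →+* B[X]) (g k))
    have h1 := E.eqv ((c.A m).map (C : B →+* B[X]) h) ((X : B[X]) - C (c.x h))
      fun k => (c.A m).map (C : B →+* B[X]) (g k)
    have h3 : ((c.Ya m).act B[X]).toSMul.smul ((c.A m).map (C : B →+* B[X]) h)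
        ((X : B[X]) - C (c.x h)) = X := by
      rw [Ya_smul, x_map, sub_add_cancel]
    change E.f (((c.Ya m).act B[X]).toSMul.smul ((c.A m).map (C : B →+* B[X]) h)
        ((X : B[X]) - C (c.x h))) _ = _ at h1
    rw [h3] at h1
    have h4 : (fun k => (c.A m).map (C : B →+* B[X]) (g k * h⁻¹)) =
        fun k => (c.A m).map (C : B →+* B[X]) (g k) * ((c.A m).map (C : B →+* B[X]) h)⁻¹ := by
      funext k
      rw [map_mul, map_inv]
    rw [h4, h1]
    have h5 := E.nat ((taylorAlgHom (-(c.x h)) : B[X] →ₐ[B] B[X]) : B[X] →+* B[X]) (X : B[X])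
      fun k => (c.A m).map (C : B →+* B[X]) (g k)
    have h6 : (c.Ya m).map ((taylorAlgHom (-(c.x h)) : B[X] →ₐ[B] B[X]) : B[X] →+* B[X])
        (X : B[X]) = X - C (c.x h) := by
      change taylor (-(c.x h)) X = _
      rw [taylor_X, C_neg, sub_eq_add_neg]
    rw [h6] at h5
    rw [pow_zero, pow_one]
    refine Eq.trans ?_ h5
    change (fun (a : ℕ → (c.A m).obj B[X]) => E.f (X - C (c.x h)) a) _ =
      (fun (a : ℕ → (c.A m).obj B[X]) => E.f (X - C (c.x h)) a) _
    congr 1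
    funext k
    apply c.A_ext
    intro i _
    change c.t (𝒢.map _ _) _ = c.t (𝒢.map _ (𝒢.map _ _)) _
    rw [c.t_map, c.t_map, c.t_map]
    exact (taylor_C _ _).symm

theorem toY_f {n : ℕ} (F : Coch (pt (c.A m)) (c.M m 0) n) {B : Type} [CommRing B] [FpA p B]
    (y : B) (g : ℕ → (c.A m).obj B) : (c.toY F).f y g = eval y (F.f () g) := rfl

theorem ofY_f {n : ℕ} (E : Coch (c.Ya m) (triv (c.A m)) n) {B : Type} [CommRing B] [FpA p B]
    (g : ℕ → (c.A m).obj B) :
    (c.ofY E).f () g = E.f (X : B[X]) fun k => (c.A m).map (C : B →+* B[X]) (g k) := rfl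

theorem ofY_toY {n : ℕ} (F : Coch (pt (c.A m)) (c.M m 0) n) : c.ofY (c.toY F) = F :=
  Coch.ext' fun {B} _ _ y g => by
  change eval (X : B[X]) (F.f () fun k => (c.A m).map (C : B →+* B[X]) (g k)) = F.f () g
  have h := F.nat (C : B →+* B[X]) () g
  change (F.f () fun k => (c.A m).map (C : B →+* B[X]) (g k)) =
    Polynomial.map (C : B →+* B[X]) (F.f () g) at h
  rw [h, eval_map, eval₂_C_X]

theorem ofY_d {n : ℕ} (E : Coch (c.Ya m) (triv (c.A m)) n) : c.ofY E.d = (c.ofY E).d :=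
  Coch.ext' fun {B} _ _ y g => by
  change dS n (E.f (X : B[X])) _ = dS n _ _
  rw [dS_apply, dS_apply]
  refine Finset.sum_congr rfl fun j _ => ?_
  congr 1
  change _ = E.f (X : B[X]) _
  congr 1
  funext k
  simp only [del]
  split_ifs <;> rfl

theorem toY_d {n : ℕ} (F : Coch (pt (c.A m)) (c.M m 0) n) : c.toY F.d = (c.toY F).d :=
  Coch.ext' fun {B} _ _ y g => by
  change eval y (dS n (F.f ()) g) = dS n (fun g => eval y (F.f () g)) g
  exact (dS_map n ((evalRingHom y : B[X] →+* B) : B[X] →+ B) (F.f ()) g).symm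

theorem isWt_toY {n : ℕ} {w : ℤ} {F : Coch (pt (c.A m)) (c.M m 0) n} (hF : F.IsWt w) :
    (c.toY F).IsWt w := fun {B} _ _ u y g => by
  have h := congrArg (eval y) (hF u () g)
  change eval y (scX ((u : B) ^ ew p m 0) (F.f () fun k => (c.A m).sc u (g k))) =
    eval y (((u ^ w : Bˣ) : B) • F.f () g) at h
  rw [eval_smul] at h
  change eval ((u : B) ^ (p ^ (m + 1) - 1) * y) (F.f () fun k => (c.A m).sc u (g k)) =
    ((u ^ w : Bˣ) : B) • eval y (F.f () g)
  rw [← h, ew, pow_zero, mul_one]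
  change _ = eval y ((F.f () fun k => (c.A m).sc u (g k)).comp (C ((u : B) ^ (p ^ (m + 1) - 1)) * X))
  rw [eval_comp]
  simp

theorem isWt_ofY {n : ℕ} {w : ℤ} {E : Coch (c.Ya m) (triv (c.A m)) n} (hE : E.IsWt w) :
    (c.ofY E).IsWt w := fun {B} _ _ u y g => by
  have h := hE (Units.map ((C : B →+* B[X]) : B →* B[X]) u) (X : B[X])
    fun k => (c.A m).map (C : B →+* B[X]) (g k)
  change scX ((u : B) ^ ew p m 0) (E.f (X : B[X]) fun k => (c.A m).map (C : B →+* B[X])
    ((c.A m).sc u (g k))) = ((u ^ w : Bˣ) : B) • E.f (X : B[X]) _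
  change E.f (((Units.map ((C : B →+* B[X]) : B →* B[X]) u : B[X]ˣ) : B[X]) ^ (p ^ (m + 1) - 1) * X) _ =
    (((Units.map ((C : B →+* B[X]) : B →* B[X]) u) ^ w : B[X]ˣ) : B[X]) • E.f (X : B[X]) _ at h
  have e1 : (((Units.map ((C : B →+* B[X]) : B →* B[X]) u) ^ w : B[X]ˣ) : B[X]) = C ((u ^ w : Bˣ) : B) := by
    rw [← map_zpow]
    rfl
  rw [e1, smul_eq_mul, ← smul_eq_C_mul] at h
  rw [← h]
  -- naturality for `X ↦ u^e X`
  have h5 := E.nat ((compRingHom (C ((u : B) ^ (p ^ (m + 1) - 1)) * X) : B[X] →+* B[X])) (X : B[X])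
    fun k => (c.A m).map (C : B →+* B[X]) ((c.A m).sc u (g k))
  have h6 : (c.Ya m).map (compRingHom (C ((u : B) ^ (p ^ (m + 1) - 1)) * X) : B[X] →+* B[X])
      (X : B[X]) = ((Units.map ((C : B →+* B[X]) : B →* B[X]) u : B[X]ˣ) : B[X]) ^ (p ^ (m + 1) - 1) * X := by
    change X.comp _ = _
    rw [X_comp, C_pow]
    rfl
  rw [h6] at h5
  rw [ew, pow_zero, mul_one]
  refine Eq.trans h5.symm ?_
  change (fun (a : ℕ → (c.A m).obj B[X]) => E.f _ a) _ =
    (fun (a : ℕ → (c.A m).obj B[X]) => E.f _ a) _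
  congr 1
  funext k
  apply c.A_ext
  intro i _
  change c.t (𝒢.map _ (𝒢.map _ (𝒢.sc _ _))) _ = c.t (𝒢.sc _ (𝒢.map _ _)) _
  rw [c.t_map, c.t_map, c.t_sc, c.t_sc, c.t_map]
  change (C _).comp _ = _
  rw [C_comp, C_mul, C_pow]
  rfl

theorem van_M_zero {n : ℕ} {w : ℤ}
    (h : Van (pt (c.A (m + 1))) (triv (c.A (m + 1))) n w) : Van (pt (c.A m)) (c.M m 0) n w := by
  rw [← van_Ya] at h
  rcases n with _ | n
  · rw [van_zero] at *
    intro F hF hd
    have h1 := h (c.toY F) (c.isWt_toY hF) (by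
      rw [← toY_d, hd]
      exact Coch.ext' fun y g => eval_zero)
    rw [← c.ofY_toY F, h1]
    rfl
  · rw [van_succ] at *
    intro F hF hd
    obtain ⟨E, hE, h1⟩ := h (c.toY F) (c.isWt_toY hF) (by
      rw [← toY_d, hd]
      exact Coch.ext' fun y g => eval_zero)
    refine ⟨c.ofY E, c.isWt_ofY hE, ?_⟩
    rw [← ofY_d, h1, ofY_toY]

end Crd

end Vale.Agent.P257.H919

end
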